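import Crest.Agent.H0073.Main
import Crest.Prelude.Def_CopyThreshold

namespace Crest.Agent.H0073
open Finset Crest.FinProb Crest.CombinatoricsR.RandomGraph

variable {n : ℕ} {W : Type}

def Small (n : ℕ) (H : SimpleGraph W) (p : ℝ) : Prop :=
  ∃ C : Finset (Finset (EdgeSlot n)),
    (∀ A : Finset (EdgeSlot n), H.IsContained (edgeGraph A) → ∃ S ∈ C, S ⊆ A) ∧
    ∑ S ∈ C, p ^ S.card ≤ 1 / 2

lemma edgeGraph_adj (A : Finset (EdgeSlot n)) (x y : Fin n) (h : (edgeGraph A).Adj x y) :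
    ∃ h : ¬ s(x, y).IsDiag, (⟨s(x, y), h⟩ : EdgeSlot n) ∈ A := by
  simp only [edgeGraph, SimpleGraph.fromEdgeSet_adj, Set.mem_ofPred_eq] at h
  exact h.1

lemma exists_p (H : SimpleGraph W) (hH : H ≠ ⊥) :
    ∃ p : ℝ, 0 < p ∧ p ≤ 1 ∧ Small n H p ∧ (2 * p ≤ 1 → ¬ Small n H (2 * p)) := by
  classical
  set M : ℝ := (Fintype.card (EdgeSlot n) : ℝ) with hM
  have hM0 : 0 ≤ M := by positivity
  set p₀ : ℝ := 1 / (2 * (M + 1)) with hp₀
  have h0 : 0 < p₀ := by positivity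
  have h1 : p₀ ≤ 1 := by rw [hp₀, div_le_one (by positivity)]; linarith
  have h2 : Small n H p₀ := by
    refine ⟨univ.image fun z => {z}, fun A hA => ?_, ?_⟩
    · obtain ⟨a, b, hab⟩ := SimpleGraph.ne_bot_iff_exists_adj.1 hH
      obtain ⟨f⟩ := hA
      obtain ⟨h, h'⟩ := edgeGraph_adj A _ _ (f.toHom.map_adj hab)
      exact ⟨_, mem_image_of_mem _ (mem_univ _), singleton_subset_iff.2 h'⟩
    · rw [sum_image fun x _ y _ h => singleton_injective h]
      simp only [card_singleton, pow_one, sum_const, card_univ, nsmul_eq_mul, ← hM]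
      rw [hp₀, mul_one_div, div_le_div_iff₀ (by positivity) (by norm_num)]
      linarith
  have hex : ∃ j : ℕ, ¬ (2 ^ j * p₀ ≤ 1 ∧ Small n H (2 ^ j * p₀)) := by
    obtain ⟨j, hj⟩ := pow_unbounded_of_one_lt (1 / p₀) (by norm_num : (1 : ℝ) < 2)
    rw [div_lt_iff₀ h0] at hj
    exact ⟨j, fun h => absurd h.1 (not_le.2 hj)⟩
  have hj := Nat.find_spec hex
  have hj0 : Nat.find hex ≠ 0 := by
    intro h
    rw [h] at hj
    exact hj (by simpa using ⟨h1, h2⟩)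
  obtain ⟨j, hj'⟩ := Nat.exists_eq_succ_of_ne_zero hj0
  have h3 := not_not.1 (Nat.find_min hex (m := j) (by omega))
  rw [hj', pow_succ'] at hj
  refine ⟨2 ^ j * p₀, by positivity, h3.1, h3.2, fun h h' => hj ?_⟩
  rw [mul_assoc]; exact ⟨h, h'⟩

lemma spread_of_not_small [Fintype W] (H : SimpleGraph W) [Fintype H.edgeSet] (ι : W ↪ Fin n)
    {p : ℝ} (hp : 0 < p) (h : ¬ Small n H p) :
    Spread (H0076.act n) (univ.map (H0076.emb H ι 1)) (6 * 2 ^ 54 * p * Real.exp 14) := by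
  classical
  have horb : ∀ I : Finset H.edgeSet,
      (1 : ℝ) / 2 ≤ (univ.image fun π => I.map (H0076.emb H ι π)).card * p ^ I.card := by
    intro I
    by_contra hc
    refine h ⟨univ.image fun π => I.map (H0076.emb H ι π), fun A hA => ?_, ?_⟩
    · obtain ⟨f⟩ := hA
      obtain ⟨σ, hσ⟩ := Equiv.Perm.exists_extending_pair ι f ι.injective f.injective
      refine ⟨_, mem_image_of_mem _ (mem_univ σ), fun z hz => ?_⟩
      obtain ⟨⟨v, hv⟩, -, rfl⟩ := mem_map.1 hz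
      induction v using Sym2.ind with
      | h a b =>
        obtain ⟨h1, h2⟩ := edgeGraph_adj A _ _ (f.toHom.map_adj (H.mem_edgeSet.1 hv))
        convert h2 using 1
        apply Subtype.ext
        rw [H0076.emb_val, Sym2.map_mk]
        simp only [Function.comp_apply, hσ]
        rfl
    · rw [sum_congr rfl (g := fun _ => p ^ I.card) fun S hS => by
        obtain ⟨π, -, rfl⟩ := mem_image.1 hS
        rw [card_map], sum_const, nsmul_eq_mul]
      exact (not_le.1 hc).le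
  have hsp : ∀ (I : Finset H.edgeSet) (U : Finset (EdgeSlot n)),
      ((univ.filter fun π => I.map (H0076.emb H ι π) = U).card : ℝ) ≤
        2 * p ^ I.card * Fintype.card (Equiv.Perm (Fin n)) := by
    intro I U
    have h1 : ((univ.filter fun π => I.map (H0076.emb H ι π) = U).card : ℝ) *
        (univ.image fun π => I.map (H0076.emb H ι π)).card ≤ Fintype.card (Equiv.Perm (Fin n)) := by
      have := H0076.fiber_bound (H0076.act n) (H0076.emb H ι) (H0076.act_emb H ι) I U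
      exact_mod_cast (by convert this)
    have h2 := horb I
    have h3 : (0 : ℝ) ≤ (univ.filter fun π => I.map (H0076.emb H ι π) = U).card := by positivity
    have h4 : 0 ≤ p ^ I.card := by positivity
    nlinarith [mul_le_mul_of_nonneg_left h2 h3, mul_le_mul_of_nonneg_left h1 h4]
  intro J
  have := H0076.spread (H0076.act n) (H0076.emb H ι) (H0076.act_emb H ι) p hp
    (fun I U => by convert hsp I U) J
  refine le_trans (Nat.cast_le.2 (card_le_card_of_injOn (fun σ => σ⁻¹) (fun σ hσ => ?_)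
    inv_injective.injOn)) this
  simp only [coe_filter, mem_univ, true_and, Set.mem_ofPred_eq] at hσ ⊢
  intro z hz
  obtain ⟨v, -, hv⟩ := mem_map.1 (hσ (mem_map_of_mem _ hz))
  refine mem_map.2 ⟨v, mem_univ _, ?_⟩
  rw [← mul_one σ⁻¹, ← H0076.act_emb, hv]
  simp

lemma piece_adj {k : ℕ} (H : SimpleGraph W) (c : H.edgeSet → Fin k) (i : Fin k) (a b : W)
    (h : (pieceGraph H c i).Adj a b) : ∃ h : s(a, b) ∈ H.edgeSet, c ⟨s(a, b), h⟩ = i := by
  simp only [pieceGraph, SimpleGraph.fromEdgeSet_adj, Set.mem_ofPred_eq] at h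
  exact h.1

lemma gnp_eq (p : ℝ) (P : SimpleGraph (Fin n) → Prop) :
    gnpProb n p {G | P G} = Pr p (fun ω : EdgeSlot n → Bool => P (graphOf ω)) := by
  unfold gnpProb
  rw [Pr_eq]; rfl

theorem final :
    ∃ k : ℕ, 2 ≤ k ∧ ∃ L : ℝ, 1 ≤ L ∧ ∀ n : ℕ, 2 ≤ n →
      ∀ (W : Type) [Fintype W] [DecidableEq W] (H : SimpleGraph W),
        Fintype.card W ≤ n → H ≠ ⊥ →
        ∃ c : H.edgeSet → Fin k, ∀ i : Fin k, ∃ p : ℝ, 0 ≤ p ∧ p ≤ 1 ∧ Small n H p ∧
          1 / 2 ≤ gnpProb n (min 1 (L * p)) {G | (pieceGraph H c i).IsContained G} := by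
  classical
  obtain ⟨N, hN⟩ : ∃ N : ℕ, (2 ^ 33) ^ 10 ≤ N := ⟨_, le_rfl⟩
  obtain ⟨L, hL, hL'⟩ : ∃ L : ℝ, 2000 ≤ L ∧ 4 * (N : ℝ) ^ 2 ≤ L :=
    ⟨_, le_max_left _ _, le_max_right _ _⟩
  have hK : (1 : ℝ) ≤ 6 * 2 ^ 54 * Real.exp 14 := by
    have := Real.add_one_le_exp 14
    linarith
  let K := Fin 400 × Fin 400 × Fin 400 × Bool × Bool
  have hk : 2 ≤ Fintype.card K := by simp [K, Fintype.card_prod]
  have hL2 : 2 ≤ L * (6 * 2 ^ 54 * Real.exp 14) * 2 := by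
    have := one_le_mul_of_one_le_of_one_le (by linarith : 1 ≤ L) hK
    linarith
  refine ⟨Fintype.card K, hk, L * (6 * 2 ^ 54 * Real.exp 14) * 2, by linarith,
    fun n hn W _ _ H hW hH => ?_⟩
  obtain ⟨ι⟩ : Nonempty (W ↪ Fin n) :=
    Function.Embedding.nonempty_of_card_le (by simpa using hW)
  obtain ⟨p, hp0, hp1, hp2, hp3⟩ := exists_p (n := n) H hH
  rcases le_total 1 (L * (6 * 2 ^ 54 * Real.exp 14) * 2 * p) with h | h
  · refine ⟨fun _ => ⟨0, by omega⟩, fun i => ⟨p, hp0.le, hp1, hp2, ?_⟩⟩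
    rw [min_eq_left h, gnp_eq]
    have h1 := Pr_sub (α := EdgeSlot n) 1 univ
    rw [one_pow] at h1
    refine le_trans (by norm_num) (h1.ge.trans (Pr_mono zero_le_one le_rfl fun ω hω => ?_))
    refine ⟨⟨⟨ι, fun {a b} hab => ?_⟩, ι.injective⟩⟩
    rw [H0076.graphOf_adj]
    exact ⟨by rw [Sym2.mk_isDiag_iff]; exact ι.injective.ne hab.ne, hω _ (mem_univ _)⟩
  have hsp := spread_of_not_small H ι (by positivity : 0 < 2 * p) 
    (hp3 ((mul_le_mul_of_nonneg_right hL2 hp0.le).trans h))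
  have e : L * (6 * 2 ^ 54 * Real.exp 14) * 2 * p = L * (6 * 2 ^ 54 * (2 * p) * Real.exp 14) := by
    ring
  rw [e] at h
  obtain ⟨Out, pc, h1, h2, h3⟩ := pieces hn (H.map ι) (by
      obtain ⟨a, b, hab⟩ := SimpleGraph.ne_bot_iff_exists_adj.1 hH
      exact SimpleGraph.ne_bot_iff_exists_adj.2 ⟨ι a, ι b, by simpa using hab⟩)
    (univ.map (H0076.emb H ι 1)) (fun z => by
      rw [SimpleGraph.edgeSet_map, mem_map]
      constructor
      · rintro ⟨v, -, rfl⟩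
        exact ⟨v.1, v.2, rfl⟩
      · rintro ⟨v, hv, hv'⟩
        exact ⟨⟨v, hv⟩, mem_univ _, Subtype.ext hv'⟩)
    (by positivity) N hN L hL hL' h hsp
  choose sg hsg using h3
  have hor : ∀ v : H.edgeSet, ∃ t x : W, v.1 = s(t, x) ∧ ι x ∈ Out (ι t) := by
    rintro ⟨v, hv⟩
    induction v using Sym2.ind with
    | h a b =>
      rcases h1 (ι a) (ι b) (by simpa using hv) with h' | h'
      · exact ⟨a, b, rfl, h'⟩
      · exact ⟨b, a, Sym2.eq_swap, h'⟩
  choose tl hd ht1 ht2 using hor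
  let cls : H.edgeSet → K := fun v =>
    (⟨_, (h2 _ _ (ht2 v)).1⟩, ⟨_, (h2 _ _ (ht2 v)).2.1⟩, ⟨_, (h2 _ _ (ht2 v)).2.2⟩,
      (pc (ι (tl v)) (ι (hd v))).2.2.2, sg (pc (ι (tl v)) (ι (hd v))) (ι (tl v), ι (hd v)))
  refine ⟨fun v => Fintype.equivFin K (cls v), fun i => ⟨p, hp0.le, hp1, hp2, ?_⟩⟩
  rw [e, min_eq_right h, gnp_eq]
  obtain ⟨⟨a, b, c, ty, s⟩, rfl⟩ := (Fintype.equivFin K).surjective i
  refine (hsg (a.val, b.val, c.val, ty) s).trans (Pr_mono (by positivity) h fun ω ⟨σ, hσ⟩ => ?_)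
  refine ⟨⟨⟨σ ∘ ι, fun {x y} hxy => ?_⟩, σ.injective.comp ι.injective⟩⟩
  obtain ⟨hv, hc⟩ := piece_adj H _ _ x y hxy
  have hc := (Fintype.equivFin K).injective hc
  set v : H.edgeSet := ⟨s(x, y), hv⟩ with hvdef
  simp only [cls, K, Prod.mk.injEq, Fin.ext_iff] at hc
  obtain ⟨c1, c2, c3, c4, c5⟩ := hc
  have hpc : pc (ι (tl v)) (ι (hd v)) = (a.val, b.val, c.val, ty) := by
    rw [← c1, ← c2, ← c3, ← c4]
  rw [hpc] at c5
  have hadj := hσ (ι (tl v)) (ι (hd v)) (mem_filter.2 ⟨mem_filter.2 ⟨ht2 v, hpc⟩, c5⟩)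
  have hxy' : s(x, y) = s(tl v, hd v) := ht1 v
  rcases Sym2.eq_iff.1 hxy' with ⟨e1, e2⟩ | ⟨e1, e2⟩
  · rw [← e1, ← e2] at hadj; exact hadj
  · rw [← e1, ← e2] at hadj; exact hadj.symm

end Crest.Agent.H0073
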