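import Crest.Agent.H0073.Second

/-! Compression of up-sets to fresh generators, tail bounds. -/

namespace Crest.Agent.H0073
open Finset Crest.FinProb

section
variable {α : Type*} [Fintype α] [DecidableEq α]

def UF (F : Finset (Finset α)) (W : Finset α) : Prop := ∃ B ∈ F, B ⊆ W

noncomputable def mu (q : ℝ) (F : Finset (Finset α)) : ℝ := Pr q (fun ω => UF F (st ω))

def cl (q : ℝ) (F : Finset (Finset α)) (B : Finset α) : Prop :=
  1 / 2 ≤ Pr q (fun ω => UF F (st ω ∪ B))

def q2 (q : ℝ) : ℝ := 1 - (1 - q) * (1 - q)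

def fresh (q : ℝ) (d : ℕ) (F : Finset (Finset α)) : Prop :=
  F.Nonempty ∧ (∀ B ∈ F, B.card ≤ d) ∧ F.card * q ^ d ≤ 2 * mu q F

lemma q2_nonneg {q : ℝ} (h0 : 0 ≤ q) (h1 : q ≤ 1) : 0 ≤ q2 q := by unfold q2; nlinarith
lemma q2_le_one {q : ℝ} : q2 q ≤ 1 := by unfold q2; nlinarith [mul_self_nonneg (1 - q)]
lemma le_q2 {q : ℝ} (h0 : 0 ≤ q) (h1 : q ≤ 1) : q ≤ q2 q := by unfold q2; nlinarith
lemma q2_le {q : ℝ} : q2 q ≤ 2 * q := by unfold q2; nlinarith [mul_self_nonneg q]

omit [Fintype α] [DecidableEq α] in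
lemma UF.mono {F : Finset (Finset α)} {W W' : Finset α} (h : W ⊆ W') (hW : UF F W) : UF F W' := by
  obtain ⟨B, hB, hB'⟩ := hW
  exact ⟨B, hB, hB'.trans h⟩

lemma cl_mono {q : ℝ} (h0 : 0 ≤ q) (h1 : q ≤ 1) (F : Finset (Finset α)) (B B' : Finset α)
    (h : B ⊆ B') (hB : cl q F B) : cl q F B' :=
  le_trans hB (Pr_mono h0 h1 fun _ hω => hω.mono (union_subset_union_right h))

lemma Pr_cl_le {q : ℝ} (h0 : 0 ≤ q) (h1 : q ≤ 1) (F : Finset (Finset α)) :
    Pr q (fun ω => cl q F (st ω)) ≤ 2 * mu (q2 q) F := by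
  unfold mu Pr q2
  rw [← E_union, ← E_const_mul]
  refine E_mono h0 h1 fun ω => ?_
  have e : E q (fun ω' : α → Bool => ind (UF F (st fun a => ω a || ω' a))) =
      Pr q (fun ω' => UF F (st ω' ∪ st ω)) := by
    refine E_congr _ fun ω' => ?_
    congr 2
    ext a; simp [or_comm]
  rw [e]
  by_cases h : cl q F (st ω)
  · rw [ind_pos h]; unfold cl at h; linarith
  · rw [ind_neg h]; have := Pr_nonneg h0 h1 (fun ω' => UF F (st ω' ∪ st ω)); linarith

lemma mu_nonneg {q : ℝ} (h0 : 0 ≤ q) (h1 : q ≤ 1) (F : Finset (Finset α)) : 0 ≤ mu q F :=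
  Pr_nonneg h0 h1 _

lemma mu_le_q2 {q : ℝ} (h0 : 0 ≤ q) (h1 : q ≤ 1) (F : Finset (Finset α)) :
    mu q F ≤ mu (q2 q) F :=
  Pr_mono_q h0 (le_q2 h0 h1) q2_le_one _ fun _ _ h hω =>
    hω.mono fun a ha => mem_st.2 (h a (mem_st.1 ha))

lemma mu_insert (q : ℝ) (F : Finset (Finset α)) (B : Finset α) :
    mu q (insert B F) = mu q F + q ^ B.card * (1 - Pr q (fun ω => UF F (st ω ∪ B))) := by
  rw [← Pr_sub, ← Pr_not]
  unfold mu Pr
  rw [← E_indep q (fun a => a ∈ B), ← E_add]
  · refine E_congr _ fun ω => ?_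
    dsimp only
    by_cases hB : ∀ a ∈ B, ω a = true
    · have e : st ω ∪ B = st ω := union_eq_left.2 fun a ha => mem_st.2 (hB a ha)
      rw [e, ind_pos hB, ind_not,
        ind_pos (P := UF (insert B F) (st ω)) ⟨B, mem_insert_self _ _, fun a ha => mem_st.2 (hB a ha)⟩]
      ring
    · rw [ind_neg hB, zero_mul, add_zero]
      refine ind_congr ⟨?_, ?_⟩
      · rintro ⟨B', hB', h⟩
        rcases mem_insert.1 hB' with rfl | hB'
        · exact absurd (fun a ha => mem_st.1 (h ha)) hB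
        · exact ⟨B', hB', h⟩
      · rintro ⟨B', hB', h⟩
        exact ⟨B', mem_insert_of_mem hB', h⟩
  · intro ω ω' h
    refine ind_congr (forall₂_congr fun a ha => ?_)
    rw [h a ha]
  · intro ω ω' h
    have : st ω ∪ B = st ω' ∪ B := by
      ext a
      by_cases ha : a ∈ B
      · simp [ha]
      · simp [ha, h a ha]
    dsimp only
    rw [this]

lemma compress {q : ℝ} (h0 : 0 ≤ q) (h1 : q ≤ 1) (d : ℕ) (𝓑 : Finset (Finset α))
    (hne : 𝓑.Nonempty) (hd : ∀ B ∈ 𝓑, B.card ≤ d) :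
    ∃ F ⊆ 𝓑, fresh q d F ∧ ∀ B ∈ 𝓑, cl q F B := by
  classical
  obtain ⟨F, hF, hmax⟩ := exists_max_image
    (𝓑.powerset.filter fun F => F.card * q ^ d ≤ 2 * mu q F) card
    ⟨∅, by simpa using mu_nonneg h0 h1 _⟩
  rw [mem_filter, mem_powerset] at hF
  have hcl : ∀ B ∈ 𝓑, cl q F B := by
    intro B hB
    by_cases hBF : B ∈ F
    · unfold cl
      rw [Pr_true q fun ω => ⟨B, hBF, subset_union_right⟩]; norm_num
    · by_contra hc
      unfold cl at hc
      push Not at hc
      have h2 : q ^ d ≤ q ^ B.card := pow_le_pow_of_le_one h0 h1 (hd B hB)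
      have h3 : 0 ≤ q ^ d := pow_nonneg h0 _
      have := hmax (insert B F) (by
        rw [mem_filter, mem_powerset]
        refine ⟨insert_subset hB hF.1, ?_⟩
        rw [card_insert_of_notMem hBF, mu_insert]
        push_cast
        nlinarith [hF.2])
      rw [card_insert_of_notMem hBF] at this
      omega
  refine ⟨F, hF.1, ⟨?_, fun B hB => hd B (hF.1 hB), hF.2⟩, hcl⟩
  obtain ⟨B, hB⟩ := hne
  rw [nonempty_iff_ne_empty]
  rintro rfl
  have := hcl B hB
  unfold cl at this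
  have e : Pr q (fun ω : α → Bool => UF ∅ (st ω ∪ B)) = 0 := by
    unfold Pr
    rw [E_congr _ (g := fun _ => 0) fun ω => ind_neg (by simp [UF]), E_const]
  rw [e] at this
  norm_num at this

lemma card_small (d : ℕ) :
    (univ.filter fun B : Finset α => B.card ≤ d).card ≤ (Fintype.card α + 1) ^ d := by
  have h : (univ.filter fun B : Finset α => B.card ≤ d) =
      (range (d + 1)).biUnion fun i => powersetCard i univ := by
    ext B; simp [Nat.lt_succ_iff]
  rw [h, add_pow]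
  refine card_biUnion_le.trans (sum_le_sum fun i hi => ?_)
  rw [card_powersetCard, card_univ, one_pow, mul_one]
  have h1 : 1 ≤ d.choose i := Nat.choose_pos (Nat.lt_succ_iff.1 (mem_range.1 hi))
  calc _ ≤ Fintype.card α ^ i := Nat.choose_le_pow _ _
    _ ≤ _ := Nat.le_mul_of_pos_right _ h1

open Classical in
lemma fresh_sum {q : ℝ} (h0 : 0 ≤ q) (h1 : q ≤ 1) (d : ℕ) (m ε : ℝ) (hm : 0 ≤ m) (hε : ε ≤ 1)
    (h : ((Fintype.card α : ℝ) + 1) ^ d * Real.exp (-(m * q ^ d / 16)) ≤ ε) :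
    ∑ F ∈ univ.filter (fun F : Finset (Finset α) => fresh q d F),
      Real.exp (-(m * mu (q2 q) F / 8)) ≤ 2 * ε := by
  set δ := Real.exp (-(m * q ^ d / 16)) with hδ
  have hδ0 : 0 < δ := Real.exp_pos _
  set 𝒟 := univ.filter fun B : Finset α => B.card ≤ d with h𝒟
  have a1 : ∑ F ∈ univ.filter (fun F : Finset (Finset α) => fresh q d F),
      Real.exp (-(m * mu (q2 q) F / 8)) ≤ ∑ F ∈ 𝒟.powerset.erase ∅, δ ^ F.card := by
    refine le_trans (sum_le_sum fun F hF => ?_) (sum_le_sum_of_subset_of_nonneg (fun F hF => ?_)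
      fun _ _ _ => by positivity)
    · obtain ⟨-, -, hF⟩ := (mem_filter.1 hF).2
      rw [hδ, ← Real.exp_nat_mul]
      refine Real.exp_le_exp.2 ?_
      have := mu_le_q2 h0 h1 F
      nlinarith [mul_le_mul_of_nonneg_left (hF.trans (mul_le_mul_of_nonneg_left this two_pos.le)) hm]
    · obtain ⟨hne, hF, -⟩ := (mem_filter.1 hF).2
      rw [mem_erase, mem_powerset]
      exact ⟨hne.ne_empty, fun B hB => by simpa [h𝒟] using hF B hB⟩
  have a2 : ∑ F ∈ 𝒟.powerset.erase ∅, δ ^ F.card = (1 + δ) ^ 𝒟.card - 1 := by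
    have e1 := prod_one_add (f := fun _ : Finset α => δ) 𝒟
    simp only [prod_const] at e1
    rw [e1, ← add_sum_erase _ _ (empty_mem_powerset 𝒟)]
    simp
  have a3 : (𝒟.card : ℝ) * δ ≤ ε := by
    refine le_trans (mul_le_mul_of_nonneg_right ?_ hδ0.le) h
    exact_mod_cast card_small (α := α) d
  have a4 : (1 + δ) ^ 𝒟.card ≤ Real.exp (𝒟.card * δ) := by
    rw [Real.exp_nat_mul]
    exact pow_le_pow_left₀ (by positivity) (by linarith [Real.add_one_le_exp δ]) _
  have a5 : 0 ≤ (𝒟.card : ℝ) * δ := by positivity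
  have a6 := Real.abs_exp_sub_one_le (x := 𝒟.card * δ) (by rw [abs_of_nonneg a5]; linarith)
  rw [abs_of_nonneg a5] at a6
  have := le_abs_self (Real.exp (𝒟.card * δ) - 1)
  linarith

lemma E_half_not (f : (α → Bool) → ℝ) :
    E (1 / 2) (fun ω => f (fun a => !ω a)) = E (1 / 2) f := by
  unfold E
  have hw : ∀ ω : α → Bool, bernoulliWeight (1 / 2) ω = ∏ _a : α, (1 / 2 : ℝ) := by
    intro ω
    unfold bernoulliWeight
    refine prod_congr rfl fun a _ => ?_
    split_ifs <;> norm_num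
  simp only [hw]
  have hinv : Function.Involutive (fun (ω : α → Bool) a => !ω a) := fun ω => by simp
  exact Fintype.sum_equiv hinv.toPerm _ _ fun _ => rfl

end

section
variable {A X : Type*} [Fintype A] [DecidableEq A] [Fintype X] [DecidableEq X]

open Classical in
lemma upper_tail {q : ℝ} (h0 : 0 ≤ q) (h1 : q ≤ 1) (T : Finset A) (g : A → (X → Bool) → Prop)
    (θ : ℝ) :
    Pr q (fun ω : A × X → Bool => θ ≤ (T.filter fun t => g t (fun x => ω (t, x))).card) ≤
      Real.exp (2 * ∑ t ∈ T, Pr q (g t) - θ) := by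
  refine (Pr_le_E h0 h1 (f := fun ω => Real.exp (-θ) *
    ∏ a, (1 + 2 * ind (a ∈ T ∧ g a (fun x => ω (a, x))))) (fun ω => ?_) (fun ω hω => ?_)).trans ?_
  · exact mul_nonneg (Real.exp_pos _).le (prod_nonneg fun a _ => by
      have := ind_nonneg (a ∈ T ∧ g a (fun x => ω (a, x))); positivity)
  · have e : ∏ a, (1 + 2 * ind (a ∈ T ∧ g a (fun x => ω (a, x)))) =
        3 ^ (T.filter fun t => g t (fun x => ω (t, x))).card := by
      rw [← prod_const, ← prod_subset (subset_univ (T.filter fun t => g t (fun x => ω (t, x))))]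
      · exact prod_congr rfl fun a ha => by rw [ind_pos (mem_filter.1 ha)]; norm_num
      · intro a _ ha; rw [ind_neg (by simpa using ha)]; norm_num
    rw [e]
    have h3 : Real.exp 1 ≤ 3 := by linarith [Real.exp_one_lt_d9]
    have h4 : Real.exp θ ≤ 3 ^ (T.filter fun t => g t (fun x => ω (t, x))).card := by
      calc Real.exp θ ≤ Real.exp ((T.filter fun t => g t (fun x => ω (t, x))).card * 1) :=
            Real.exp_le_exp.2 (by linarith)
        _ ≤ _ := by rw [Real.exp_nat_mul]; exact pow_le_pow_left₀ (Real.exp_pos _).le h3 _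
    rw [Real.exp_neg, inv_mul_eq_div, le_div_iff₀ (Real.exp_pos _), one_mul]
    exact h4
  · rw [E_const_mul, E_curry q (fun a ζ => 1 + 2 * ind (a ∈ T ∧ g a ζ)), sub_eq_add_neg,
      Real.exp_add, mul_comm]
    refine mul_le_mul_of_nonneg_right ?_ (Real.exp_pos _).le
    have e : ∀ a, E q (fun ζ => 1 + 2 * ind (a ∈ T ∧ g a ζ)) =
        1 + 2 * (ind (a ∈ T) * Pr q (g a)) := by
      intro a
      simp only [ind_and]
      rw [E_add, E_const, E_const_mul, E_const_mul]; rfl
    simp only [e]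
    refine (Real.prod_one_add_le_exp_sum _ fun a => ?_).trans (le_of_eq ?_)
    · have := ind_nonneg (a ∈ T); have := Pr_nonneg h0 h1 (g a); positivity
    · congr 1
      rw [← mul_sum]
      congr 1
      simp only [ind_eq_ite, ite_mul, one_mul, zero_mul]
      rw [← sum_filter]; simp

open Classical in
lemma lower_tail {q : ℝ} (h0 : 0 ≤ q) (h1 : q ≤ 1) (g : A → (X → Bool) → Prop) (θ : ℝ) :
    Pr q (fun ω : A × X → Bool =>
      ((univ.filter fun t => g t (fun x => ω (t, x))).card : ℝ) ≤ θ) ≤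
      Real.exp (θ - (∑ t, Pr q (g t)) / 2) := by
  refine (Pr_le_E h0 h1 (f := fun ω => Real.exp θ *
    ∏ a, (1 - 1 / 2 * ind (g a (fun x => ω (a, x))))) (fun ω => ?_) (fun ω hω => ?_)).trans ?_
  · exact mul_nonneg (Real.exp_pos _).le (prod_nonneg fun a _ => by
      have := ind_le_one (g a (fun x => ω (a, x))); linarith)
  · have e : ∏ a, (1 - 1 / 2 * ind (g a (fun x => ω (a, x)))) =
        (1 / 2) ^ (univ.filter fun t => g t (fun x => ω (t, x))).card := by
      rw [← prod_const, ← prod_subset (subset_univ (univ.filter fun t => g t (fun x => ω (t, x))))]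
      · exact prod_congr rfl fun a ha => by rw [ind_pos (mem_filter.1 ha).2]; norm_num
      · intro a _ ha; rw [ind_neg (by simpa using ha)]; norm_num
    rw [e]
    have h3 : 2 ≤ Real.exp 1 := by linarith [Real.exp_one_gt_d9]
    have h4 : (2 : ℝ) ^ (univ.filter fun t => g t (fun x => ω (t, x))).card ≤ Real.exp θ := by
      calc _ ≤ Real.exp ((univ.filter fun t => g t (fun x => ω (t, x))).card * 1) := by
            rw [Real.exp_nat_mul]; exact pow_le_pow_left₀ (by norm_num) h3 _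
        _ ≤ _ := Real.exp_le_exp.2 (by linarith)
    rw [one_div, inv_pow, ← div_eq_mul_inv, le_div_iff₀ (by positivity), one_mul]
    exact h4
  · rw [E_const_mul, E_curry q (fun a ζ => 1 - 1 / 2 * ind (g a ζ)), sub_eq_add_neg,
      Real.exp_add]
    refine mul_le_mul_of_nonneg_left ?_ (Real.exp_pos _).le
    have e : ∀ a, E q (fun ζ => 1 - 1 / 2 * ind (g a ζ)) = 1 - 1 / 2 * Pr q (g a) := by
      intro a
      rw [E_sub, E_const, E_const_mul]; rfl
    simp only [e]
    rw [sum_div, ← sum_neg_distrib, Real.exp_sum]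
    refine prod_le_prod (fun a _ => ?_) fun a _ => ?_
    · have := Pr_le_one h0 h1 (g a); linarith
    · have := Real.add_one_le_exp (-(Pr q (g a) / 2)); linarith

end

end Crest.Agent.H0073
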