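import Crest.Agent.H0073.Fresh
import Crest.Agent.H0076.Graph

/-! Layer-by-layer embedding through Hall's theorem. -/

namespace Crest.Agent.H0073
open Finset Crest.FinProb Crest.CombinatoricsR.RandomGraph

variable {n : ℕ}

def Emb (C : Fin n → Finset (Fin n)) (G : SimpleGraph (Fin n)) : Prop :=
  ∃ σ : Equiv.Perm (Fin n), ∀ t, ∀ h ∈ C t, G.Adj (σ t) (σ h)

open Classical in
def SlotGood (q : ℝ) (d : ℕ) (R : Finset (Fin n)) (G : SimpleGraph (Fin n)) : Prop :=
  ∀ F : Finset (Finset (Fin n)), fresh q d F → (∀ B ∈ F, Disjoint B R) →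
    R.card * mu (q2 q) F / 4 ≤ (R.filter fun x => ∃ B ∈ F, ∀ v ∈ B, G.Adj x v).card

open Classical in
def Dom (q : ℝ) (d : ℕ) (T : Finset (Fin n)) (C : Fin n → Finset (Fin n)) (m : ℝ) : Prop :=
  ∀ F : Finset (Finset (Fin n)), fresh q d F →
    (T.filter fun t => cl q F (C t)).card ≤ m * mu (q2 q) F / 4

open Classical in
lemma slot_one {q : ℝ} (h0 : 0 ≤ q) (h1 : q ≤ 1) (R : Finset (Fin n))
    (F : Finset (Finset (Fin n))) (hF : ∀ B ∈ F, Disjoint B R) :
    Pr q (fun ω : EdgeSlot n → Bool =>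
      ((R.filter fun x => ∃ B ∈ F, ∀ v ∈ B, (graphOf ω).Adj x v).card : ℝ) < R.card * mu q F / 4)
      ≤ Real.exp (-(R.card * mu q F / 8)) := by
  let ι : {x // x ∈ R} × {v // v ∉ R} → EdgeSlot n := fun p =>
    ⟨s(p.1.1, p.2.1), by
      rw [Sym2.mk_isDiag_iff]; intro h; exact p.2.2 (h ▸ p.1.2)⟩
  have hι : Function.Injective ι := by
    rintro ⟨⟨x, hx⟩, ⟨v, hv⟩⟩ ⟨⟨x', hx'⟩, ⟨v', hv'⟩⟩ h
    have h' : s(x, v) = s(x', v') := congrArg Subtype.val h
    rcases Sym2.eq_iff.1 h' with ⟨rfl, rfl⟩ | ⟨rfl, rfl⟩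
    · rfl
    · exact absurd hx hv'
  let g : ({v // v ∉ R} → Bool) → Prop := fun ζ => ∃ B ∈ F, ∀ v : {v // v ∉ R}, v.1 ∈ B → ζ v = true
  have hg : Pr q g = mu q F := by
    unfold Pr mu Pr
    rw [← E_comp_inj q (Subtype.val : {v // v ∉ R} → Fin n) Subtype.val_injective]
    refine E_congr _ fun ω => ind_congr (exists_congr fun B => and_congr_right fun hB => ?_)
    constructor
    · intro h v hv
      exact mem_st.2 (h ⟨v, disjoint_left.1 (hF B hB) hv⟩ hv)
    · intro h v hv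
      exact (mem_st (ω := ω)).1 (h hv)
  have h2 := lower_tail (A := {x // x ∈ R}) h0 h1 (fun _ => g) (R.card * mu q F / 4)
  simp only [hg, sum_const, card_univ, Fintype.card_coe, nsmul_eq_mul] at h2
  have hμ : 0 ≤ (R.card : ℝ) * mu q F := mul_nonneg (by positivity) (mu_nonneg h0 h1 F)
  refine le_trans ?_ (h2.trans (Real.exp_le_exp.2 (by linarith)))
  unfold Pr
  rw [← E_comp_inj q ι hι]
  refine E_mono h0 h1 fun ω => ind_mono fun h => le_trans ?_ h.le
  refine Nat.cast_le.2 (card_le_card_of_injOn Subtype.val (fun a ha => ?_)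
    Subtype.val_injective.injOn)
  simp only [coe_filter, mem_univ, true_and, Set.mem_ofPred_eq] at ha ⊢
  obtain ⟨B, hB, hB'⟩ := ha
  refine ⟨a.2, B, hB, fun v hv => ?_⟩
  rw [H0076.graphOf_adj]
  exact ⟨_, hB' ⟨v, disjoint_left.1 (hF B hB) hv⟩ hv⟩

lemma slot_prob {q : ℝ} (h0 : 0 ≤ q) (h1 : q ≤ 1) (d : ℕ) (R : Finset (Fin n)) (ε : ℝ)
    (hε : ε ≤ 1) (h : ((n : ℝ) + 1) ^ d * Real.exp (-(R.card * q ^ d / 16)) ≤ ε) :
    Pr (q2 q) (fun ω : EdgeSlot n → Bool => ¬ SlotGood q d R (graphOf ω)) ≤ 2 * ε := by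
  classical
  have h0' := q2_nonneg h0 h1
  have h1' := q2_le_one (q := q)
  refine le_trans ?_ (fresh_sum (α := Fin n) h0 h1 d R.card ε (by positivity) hε (by simpa using h))
  refine le_trans (Pr_mono h0' h1' (Q := fun ω => ∃ F ∈ univ.filter
    (fun F : Finset (Finset (Fin n)) => fresh q d F), (∀ B ∈ F, Disjoint B R) ∧
      ((R.filter fun x => ∃ B ∈ F, ∀ v ∈ B, (graphOf ω).Adj x v).card : ℝ) <
        R.card * mu (q2 q) F / 4) fun ω hω => ?_) ((Pr_exists_le h0' h1' _ _).trans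
          (sum_le_sum fun F _ => ?_))
  · unfold SlotGood at hω
    push Not at hω
    obtain ⟨F, h2, h3, h4⟩ := hω
    exact ⟨F, by simpa using h2, h3, by convert h4⟩
  · by_cases hF : ∀ B ∈ F, Disjoint B R
    · refine le_trans (Pr_mono h0' h1' fun ω hω => ?_) (slot_one h0' h1' R F hF)
      convert hω.2
    · unfold Pr
      rw [E_congr _ (g := fun _ => 0) fun ω => ind_neg fun h => hF h.1, E_const]
      exact (Real.exp_pos _).le

lemma dom_prob {q : ℝ} (h0 : 0 < q) (h1 : q ≤ 1) (d : ℕ) (T : Finset (Fin n))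
    (S : Fin n → Finset (Fin n)) (m ε : ℝ)
    (hΛ : ∀ B : Finset (Fin n), ((1 - q) / q) ^ B.card * (T.filter fun t => B ⊆ S t).card ≤ m / 32)
    (hε : ε ≤ 1) (h : ((n : ℝ) + 1) ^ d * Real.exp (-(m * q ^ d / 16)) ≤ ε) :
    Pr (1 / 2) (fun ω : Fin n × Fin n → Bool =>
      ¬ Dom q d T (fun t => S t ∩ st fun x => ω (t, x)) m) ≤ 2 * ε := by
  classical
  have hm : 0 ≤ m := by
    have : (0 : ℝ) ≤ m / 32 := le_trans (by simp) (hΛ ∅)
    linarith
  have a0 : (0 : ℝ) ≤ 1 / 2 := by norm_num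
  have a1 : (1 / 2 : ℝ) ≤ 1 := by norm_num
  refine le_trans ?_ (fresh_sum (α := Fin n) h0.le h1 d m ε hm hε (by simpa using h))
  refine le_trans (Pr_mono a0 a1 (Q := fun ω => ∃ F ∈ univ.filter
    (fun F : Finset (Finset (Fin n)) => fresh q d F), m * mu (q2 q) F / 4 ≤
      ((T.filter fun t => cl q F (S t ∩ st fun x => ω (t, x))).card : ℝ)) fun ω hω => ?_)
        ((Pr_exists_le a0 a1 _ _).trans (sum_le_sum fun F _ => ?_))
  · unfold Dom at hω
    push Not at hω
    obtain ⟨F, h2, h3⟩ := hω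
    exact ⟨F, by simpa using h2, by convert h3.le⟩
  · have h2 := upper_tail a0 a1 T (fun t s => cl q F (S t ∩ st s)) (m * mu (q2 q) F / 4)
    have h3 := domination h0 h1 T S (cl q F) (cl_mono h0.le h1 F) (m / 32) hΛ
    have h4 := mul_le_mul_of_nonneg_left (Pr_cl_le h0.le h1 F) hm
    refine le_trans (by convert h2) (Real.exp_le_exp.2 ?_)
    linarith

lemma mu_perm (q : ℝ) (σ : Equiv.Perm (Fin n)) (F : Finset (Finset (Fin n))) :
    mu q (F.image fun B => B.map σ.toEmbedding) = mu q F := by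
  unfold mu Pr
  rw [← E_comp_inj q σ σ.injective (fun ω => ind (UF F (st ω)))]
  refine E_congr _ fun ω => ind_congr ⟨?_, ?_⟩
  · rintro ⟨_, hB, h⟩
    obtain ⟨B, hB', rfl⟩ := mem_image.1 hB
    exact ⟨B, hB', fun v hv => mem_st.2 ((mem_st (ω := ω)).1 (h (mem_map_of_mem _ hv)))⟩
  · rintro ⟨B, hB, h⟩
    refine ⟨_, mem_image_of_mem _ hB, fun v hv => ?_⟩
    obtain ⟨v, hv', rfl⟩ := mem_map.1 hv
    exact mem_st.2 ((mem_st (ω := ω ∘ σ)).1 (h hv'))

lemma hall_step {q : ℝ} (h0 : 0 ≤ q) (h1 : q ≤ 1) (d : ℕ) (G : SimpleGraph (Fin n))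
    (R T : Finset (Fin n)) (C : Fin n → Finset (Fin n)) (σ : Equiv.Perm (Fin n))
    (hR : SlotGood q d R G) (hT : Dom q d T C R.card) (hd : ∀ t, (C t).card ≤ d)
    (hσ : ∀ t ∈ T, ∀ h ∈ C t, σ h ∉ R) :
    ∃ f : Fin n → Fin n, Set.InjOn f T ∧ ∀ t ∈ T, f t ∈ R ∧ ∀ h ∈ C t, G.Adj (f t) (σ h) := by
  classical
  obtain ⟨f, hf, hf'⟩ := (all_card_le_biUnion_card_iff_exists_injective
    (fun t : {t // t ∈ T} => R.filter fun x => ∀ h ∈ C t.1, G.Adj x (σ h))).1 (by
      intro U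
      rcases U.eq_empty_or_nonempty with rfl | hU
      · simp
      obtain ⟨F, hF, hfr, hcl⟩ := compress h0 h1 d (U.image fun t => C t.1) (hU.image _)
        (fun B hB => by obtain ⟨t, -, rfl⟩ := mem_image.1 hB; exact hd _)
      have b1 := hT F hfr
      have hinj : Function.Injective fun B : Finset (Fin n) => B.map σ.toEmbedding :=
        map_injective _
      have b2 := hR (F.image fun B => B.map σ.toEmbedding)
        ⟨hfr.1.image _, fun B hB => by
          obtain ⟨B, hB', rfl⟩ := mem_image.1 hB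
          rw [card_map]; exact hfr.2.1 B hB', by
          rw [card_image_of_injective _ hinj, mu_perm]; exact hfr.2.2⟩
        (fun B hB => by
          obtain ⟨B, hB', rfl⟩ := mem_image.1 hB
          obtain ⟨t, -, rfl⟩ := mem_image.1 (hF hB')
          rw [disjoint_left]
          intro v hv
          obtain ⟨v, hv', rfl⟩ := mem_map.1 hv
          exact hσ t.1 t.2 v hv')
      rw [mu_perm] at b2
      have b3 : U.card ≤ (T.filter fun t => cl q F (C t)).card :=
        card_le_card_of_injOn Subtype.val (fun t ht => by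
          simp only [coe_filter, Set.mem_ofPred_eq]
          exact ⟨t.2, hcl _ (mem_image_of_mem _ ht)⟩) Subtype.val_injective.injOn
      have b4 := Nat.cast_le.1 (b1.trans b2)
      refine b3.trans (le_trans (by convert b4) (card_le_card (s := R.filter fun x =>
        ∃ B ∈ F.image (fun B => B.map σ.toEmbedding), ∀ v ∈ B, G.Adj x v) fun x hx => ?_))
      obtain ⟨hx, B, hB, hB'⟩ := mem_filter.1 hx
      obtain ⟨B, hB2, rfl⟩ := mem_image.1 hB
      obtain ⟨t, ht, rfl⟩ := mem_image.1 (hF hB2)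
      exact mem_biUnion.2 ⟨t, ht, mem_filter.2 ⟨hx, fun h hh => hB' _ (mem_map_of_mem _ hh)⟩⟩)
  refine ⟨fun t => if h : t ∈ T then f ⟨t, h⟩ else t, fun a ha b hb hab => ?_, fun t ht => ?_⟩
  · have ha' : a ∈ T := ha
    have hb' : b ∈ T := hb
    simp only [ha', hb', dif_pos] at hab
    exact congrArg Subtype.val (hf hab)
  · simp only [ht, dif_pos]
    exact mem_filter.1 (hf' ⟨t, ht⟩)

lemma layered_det {q : ℝ} (h0 : 0 ≤ q) (h1 : q ≤ 1) (d : ℕ) (G : SimpleGraph (Fin n))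
    (ℓ : Fin n → ℕ) (s : ℕ) (Act : Finset (Fin n)) (R : ℕ → Finset (Fin n))
    (C : Fin n → Finset (Fin n)) (hdisj : ∀ i j, i < j → Disjoint (R i) (R j))
    (hC : ∀ t, ∀ h ∈ C t, t ∈ Act ∧ h ∈ Act ∧ ℓ h < ℓ t) (hs : ∀ v ∈ Act, ℓ v < s)
    (hd : ∀ t, (C t).card ≤ d) (hR : ∀ j < s, SlotGood q d (R j) G)
    (hT : ∀ j < s, Dom q d (Act.filter fun v => ℓ v = j) C (R j).card) : Emb C G := by
  have key : ∀ j ≤ s, ∃ σ : Equiv.Perm (Fin n), ∀ v ∈ Act, ℓ v < j →
      σ v ∈ R (ℓ v) ∧ ∀ h ∈ C v, G.Adj (σ v) (σ h) := by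
    intro j
    induction j with
    | zero => exact fun _ => ⟨1, fun _ _ h => absurd h (Nat.not_lt_zero _)⟩
    | succ j ih =>
      intro hj
      obtain ⟨σ, hσ⟩ := ih (by omega)
      obtain ⟨f, hf, hf'⟩ := hall_step h0 h1 d G (R j) _ C σ (hR j hj) (hT j hj) hd (by
        intro t ht h hh
        obtain ⟨-, h2, h3⟩ := hC t h hh
        rw [(mem_filter.1 ht).2] at h3
        exact disjoint_left.1 (hdisj _ _ h3) (hσ h h2 h3).1)
      let g : Fin n → Fin n := fun v => if ℓ v < j then σ v else f v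
      have hgR : ∀ v ∈ Act, ℓ v < j + 1 → g v ∈ R (ℓ v) := by
        intro v hv hv'
        by_cases h : ℓ v < j
        · simp only [g, h, if_true]; exact (hσ v hv h).1
        · simp only [g, h, if_false]
          have e : ℓ v = j := by omega
          rw [e]; exact (hf' v (mem_filter.2 ⟨hv, e⟩)).1
      obtain ⟨τ, hτ⟩ := Equiv.Perm.exists_extending_pair
        (Subtype.val : {v // v ∈ Act ∧ ℓ v < j + 1} → Fin n) (fun v => g v.1)
        Subtype.val_injective (by
          rintro ⟨a, ha, ha'⟩ ⟨b, hb, hb'⟩ hab0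
          have hab : g a = g b := hab0
          clear hab0
          have e : ℓ a = ℓ b := by
            by_contra hne
            rcases lt_or_gt_of_ne hne with h | h
            · exact disjoint_left.1 (hdisj _ _ h) (hgR a ha ha') (hab ▸ hgR b hb hb')
            · exact disjoint_left.1 (hdisj _ _ h) (hgR b hb hb') (hab ▸ hgR a ha ha')
          apply Subtype.ext
          by_cases h : ℓ a < j
          · have h' : ℓ b < j := e ▸ h
            simp only [g, h, h', if_true] at hab; exact σ.injective hab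
          · have h' : ¬ ℓ b < j := e ▸ h
            simp only [g, h, h', if_false] at hab
            have e1 : ℓ a = j := by omega
            have e2 : ℓ b = j := by omega
            exact hf (mem_coe.2 (mem_filter.2 ⟨ha, e1⟩)) (mem_coe.2 (mem_filter.2 ⟨hb, e2⟩)) hab)
      refine ⟨τ, fun v hv hv' => ?_⟩
      have e1 : τ v = g v := hτ ⟨v, hv, hv'⟩
      refine ⟨e1 ▸ hgR v hv hv', fun h hh => ?_⟩
      obtain ⟨-, h2, h3⟩ := hC v h hh
      have e2 : τ h = g h := hτ ⟨h, h2, by omega⟩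
      have h4 : ℓ h < j := by omega
      rw [e1, e2]
      by_cases h5 : ℓ v < j
      · simp only [g, h4, h5, if_true]; exact (hσ v hv h5).2 h hh
      · simp only [g, h4, h5, if_true, if_false]
        exact (hf' v (mem_filter.2 ⟨hv, by omega⟩)).2 h hh
  obtain ⟨σ, hσ⟩ := key s le_rfl
  exact ⟨σ, fun t h hh => (hσ t (hC t h hh).1 (hs t (hC t h hh).1)).2 h hh⟩

lemma exists_blocks (s : ℕ) (m : ℕ → ℕ) (hm : ∑ j ∈ range s, m j ≤ n) :
    ∃ R : ℕ → Finset (Fin n), (∀ i j, i < j → Disjoint (R i) (R j)) ∧ ∀ j < s, (R j).card = m j := by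
  refine ⟨fun j => univ.filter fun v => v.val ∈ Ico (∑ i ∈ range j, m i) (∑ i ∈ range (j + 1), m i),
    fun i j hij => ?_, fun j hj => ?_⟩
  · rw [disjoint_left]
    intro v h1 h2
    simp only [mem_filter, mem_univ, true_and, mem_Ico] at h1 h2
    have : ∑ k ∈ range (i + 1), m k ≤ ∑ k ∈ range j, m k :=
      sum_le_sum_of_subset (range_subset_range.2 hij)
    omega
  · have h1 : ∑ k ∈ range (j + 1), m k ≤ ∑ k ∈ range s, m k :=
      sum_le_sum_of_subset (range_subset_range.2 hj)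
    have : (univ.filter fun v : Fin n => v.val ∈ Ico (∑ i ∈ range j, m i)
        (∑ i ∈ range (j + 1), m i)).map Fin.valEmbedding =
        Ico (∑ i ∈ range j, m i) (∑ i ∈ range (j + 1), m i) := by
      ext x
      simp only [mem_map, mem_filter, mem_univ, true_and, Fin.valEmbedding_apply]
      constructor
      · rintro ⟨v, hv, rfl⟩; exact hv
      · intro hx
        exact ⟨⟨x, by have := (mem_Ico.1 hx).2; omega⟩, hx, rfl⟩
    rw [← card_map Fin.valEmbedding, this, Nat.card_Ico, sum_range_succ]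
    omega

/-- the two halves of an oriented edge family both embed -/
def Halves (p : ℝ) (S : Fin n → Finset (Fin n)) : Prop :=
  ∃ sg : Fin n × Fin n → Bool, ∀ b : Bool, 1 / 2 ≤ Pr p (fun ω : EdgeSlot n → Bool =>
    Emb (fun t => (S t).filter fun h => sg (t, h) = b) (graphOf ω))

lemma layered {q : ℝ} (h0 : 0 < q) (h1 : q ≤ 1) (d : ℕ)
    (ℓ : Fin n → ℕ) (s : ℕ) (Act : Finset (Fin n)) (m : ℕ → ℕ) (hm : ∑ j ∈ range s, m j ≤ n)
    (S : Fin n → Finset (Fin n))
    (hS : ∀ t, ∀ h ∈ S t, t ∈ Act ∧ h ∈ Act ∧ ℓ h < ℓ t) (hs : ∀ v ∈ Act, ℓ v < s)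
    (hd : ∀ t, (S t).card ≤ d)
    (hΛ : ∀ j < s, ∀ B : Finset (Fin n), ((1 - q) / q) ^ B.card *
      ((Act.filter fun v => ℓ v = j).filter fun t => B ⊆ S t).card ≤ (m j : ℝ) / 32)
    (ε : ℝ) (hε : ε ≤ 1) (hsε : 8 * s * ε ≤ 1)
    (h : ∀ j < s, ((n : ℝ) + 1) ^ d * Real.exp (-(m j * q ^ d / 16)) ≤ ε) :
    Halves (q2 q) S := by
  obtain ⟨R, hR, hR'⟩ := exists_blocks s m hm
  have a0 : (0 : ℝ) ≤ 1 / 2 := by norm_num
  have a1 : (1 / 2 : ℝ) ≤ 1 := by norm_num
  have h0' := q2_nonneg h0.le h1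
  have h1' := q2_le_one (q := q)
  let bad : (Fin n × Fin n → Bool) → Prop := fun ω => ∃ j ∈ range s,
    ¬ Dom q d (Act.filter fun v => ℓ v = j) (fun t => S t ∩ st fun x => ω (t, x)) (m j)
  have hbad : Pr (1 / 2) bad ≤ s * (2 * ε) := by
    refine (Pr_exists_le a0 a1 _ _).trans ?_
    refine (sum_le_sum fun j hj => dom_prob h0 h1 d _ S (m j) ε (hΛ j (mem_range.1 hj)) hε
      (h j (mem_range.1 hj))).trans ?_
    simp
  have hbad' : Pr (1 / 2) (fun ω => bad fun a => !ω a) = Pr (1 / 2) bad :=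
    E_half_not (fun ω => ind (bad ω))
  obtain ⟨sg, hsg⟩ := exists_of_Pr_lt_one (q := 1 / 2)
    (P := fun ω => bad ω ∨ bad fun a => !ω a) (by
      refine lt_of_le_of_lt (Pr_or_le a0 a1 _ _) ?_
      rw [hbad']; nlinarith)
  have hG : Pr (q2 q) (fun ω : EdgeSlot n → Bool =>
      ∃ j ∈ range s, ¬ SlotGood q d (R j) (graphOf ω)) ≤ s * (2 * ε) := by
    refine (Pr_exists_le h0' h1' _ _).trans ?_
    refine (sum_le_sum fun j hj => slot_prob h0.le h1 d (R j) ε hε
      (by rw [hR' j (mem_range.1 hj)]; exact h j (mem_range.1 hj))).trans ?_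
    simp
  have main : ∀ sg' : Fin n × Fin n → Bool, ¬ bad sg' → 1 / 2 ≤ Pr (q2 q)
      (fun ω : EdgeSlot n → Bool => Emb (fun t => S t ∩ st fun x => sg' (t, x)) (graphOf ω)) := by
    intro sg' hb
    have := Pr_not (q2 q) (fun ω : EdgeSlot n → Bool =>
      ∃ j ∈ range s, ¬ SlotGood q d (R j) (graphOf ω))
    refine le_trans (le_trans ?_ this.ge) (Pr_mono h0' h1' fun ω hω => ?_)
    · nlinarith
    · push Not at hω
      simp only [bad] at hb
      push Not at hb
      refine layered_det h0.le h1 d _ ℓ s Act R _ hR (fun t h hh => hS t h (mem_inter.1 hh).1) hs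
        (fun t => (card_le_card inter_subset_left).trans (hd t))
        (fun j hj => hω j (mem_range.2 hj)) fun j hj => ?_
      rw [hR' j hj]; exact hb j (mem_range.2 hj)
  rw [not_or] at hsg
  refine ⟨sg, fun b => ?_⟩
  cases b
  · have e : (fun t => (S t).filter fun h => sg (t, h) = false) =
        fun t => S t ∩ st fun x => !sg (t, x) := by
      funext t; ext x; simp
    rw [e]
    exact main (fun a => !sg a) hsg.2
  · have e : (fun t => (S t).filter fun h => sg (t, h) = true) =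
        fun t => S t ∩ st fun x => sg (t, x) := by
      funext t; ext x; simp
    rw [e]
    exact main sg hsg.1

end Crest.Agent.H0073
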