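import Crest.Agent.H0073.Struct

/-! The two regimes. -/

namespace Crest.Agent.H0073
open Finset Crest.FinProb Crest.CombinatoricsR.RandomGraph

variable {n : ℕ}

def Pieces (G : SimpleGraph (Fin n)) (p : ℝ) : Prop :=
  ∃ (Out : Fin n → Finset (Fin n)) (pc : Fin n → Fin n → ℕ × ℕ × ℕ × Bool),
    (∀ v w, G.Adj v w → w ∈ Out v ∨ v ∈ Out w) ∧
    (∀ t, ∀ h ∈ Out t, (pc t h).1 < 400 ∧ (pc t h).2.1 < 400 ∧ (pc t h).2.2.1 < 400) ∧
    ∀ κ, Halves p (fun t => (Out t).filter fun h => pc t h = κ)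

lemma Halves.mono {p p' : ℝ} (h0 : 0 ≤ p) (h : p ≤ p') (h1 : p' ≤ 1) {S : Fin n → Finset (Fin n)}
    (hS : Halves p S) : Halves p' S := by
  obtain ⟨sg, hsg⟩ := hS
  refine ⟨sg, fun b => (hsg b).trans (Pr_mono_q h0 h h1 _ fun ω ω' hω ⟨σ, hσ⟩ =>
    ⟨σ, fun t x hx => ?_⟩)⟩
  obtain ⟨h2, h3⟩ := (H0076.graphOf_adj _ _ _).1 (hσ t x hx)
  exact (H0076.graphOf_adj _ _ _).2 ⟨h2, hω _ h3⟩

lemma Pieces.mono {G : SimpleGraph (Fin n)} {p p' : ℝ} (h0 : 0 ≤ p) (h : p ≤ p') (h1 : p' ≤ 1)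
    (hG : Pieces G p) : Pieces G p' := by
  obtain ⟨Out, pc, a, b, c⟩ := hG
  exact ⟨Out, pc, a, b, fun κ => (c κ).mono h0 h h1⟩

lemma orient (G : SimpleGraph (Fin n)) (HS : Finset (EdgeSlot n))
    (hHS : ∀ z, z ∈ HS ↔ z.1 ∈ G.edgeSet) {r : ℝ} (hr : 0 ≤ r) (hr' : r < 1 / 2)
    (hsp : Spread (H0076.act n) HS r) (D : ℕ) (hD0 : 0 < D) (hD : n * r ^ D ≤ 1) (J : ℕ)
    (hJ : n < 2 ^ J) :
    ∃ (ℓ : Fin n → ℕ) (Out : Fin n → Finset (Fin n)) (rk : Fin n → Fin n → ℕ)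
      (col : Fin n → ℕ), (∀ v, ℓ v < 4 * D * J) ∧
      (∀ v w, G.Adj v w → w ∈ Out v ∨ v ∈ Out w) ∧ (∀ t, ∀ h ∈ Out t, G.Adj t h ∧ ℓ h < ℓ t) ∧
      (∀ t, (Out t).card < 4 * D) ∧ (∀ t, Set.InjOn (rk t) (Out t)) ∧
      (∀ t, ∀ h ∈ Out t, rk t h < 4 * D) ∧ (∀ v, col v < 4 * D) ∧
      ∀ v w, G.Adj v w → col v ≠ col w := by
  classical
  obtain ⟨ℓ, h1, h2, h3⟩ := layering G (4 * D) (by omega)
    (half_low G HS hHS hr hr' hsp D hD0 hD) J univ (by simpa using hJ)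
  obtain ⟨col, h4, h5⟩ := greedy G (4 * D) (by omega) ℓ univ h3
  choose rk h6 h7 using fun t => exists_rank (univ.filter fun w => G.Adj t w ∧ ℓ w ≤ ℓ t)
  refine ⟨ℓ, fun t => univ.filter fun w => G.Adj t w ∧ ℓ w ≤ ℓ t, rk, col,
    fun v => h1 v (mem_univ _), fun v w hvw => ?_, fun t h hh => ?_, fun t => h3 t (mem_univ _),
    h6, fun t h hh => (h7 t h hh).trans (h3 t (mem_univ _)), h4,
    fun v w => h5 v (mem_univ _) w (mem_univ _)⟩
  · simp only [mem_filter, mem_univ, true_and, hvw, hvw.symm]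
    exact le_total _ _
  · obtain ⟨a, b⟩ := (mem_filter.1 hh).2
    exact ⟨a, lt_of_le_of_ne b (h2 h (mem_univ _) t (mem_univ _) a.symm)⟩

lemma regime1 (G : SimpleGraph (Fin n)) (HS : Finset (EdgeSlot n))
    (hHS : ∀ z, z ∈ HS ↔ z.1 ∈ G.edgeSet) {r : ℝ} (hr : 0 < r) (hr' : 16 * r ≤ 1)
    (hsp : Spread (H0076.act n) HS r) (D : ℕ) (hD0 : 0 < D) (hD : n * r ^ D ≤ 1)
    (hD1 : D ≤ 100) : Pieces G (16 * r) := by
  obtain ⟨ℓ, Out, rk, col, -, h2, h3, -, h5, h6, h7, h8⟩ :=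
    orient G HS hHS hr.le (by linarith) hsp D hD0 hD n Nat.lt_two_pow_self
  refine ⟨Out, fun t h => (rk t h, col t, col h, false), h2, fun t h hh => ?_, fun κ => ?_⟩
  · have := h6 t h hh; have := h7 t; have := h7 h
    refine ⟨?_, ?_, ?_⟩ <;> dsimp only <;> omega
  · refine star_halves HS hr.le (by linarith) hr' le_rfl hsp _ (fun t => ?_) (fun t h hh => ?_)
      fun t h hh z hz => ?_
    · refine card_le_one.2 fun a ha b hb => ?_
      rw [mem_filter] at ha hb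
      exact h5 t ha.1 hb.1 (congrArg Prod.fst (ha.2.trans hb.2.symm))
    · rw [eq_empty_iff_forall_notMem]
      intro h' hh'
      rw [mem_filter] at hh hh'
      exact h8 t h (h3 t h hh.1).1 (congrArg (fun x => x.2.1) (hh.2.trans hh'.2.symm))
    · rw [hHS, hz]
      exact (h3 t h (mem_filter.1 hh).1).1

lemma layered2 {q : ℝ} (h0 : 0 < q) (h1 : q ≤ 1) (d : ℕ)
    (ℓ : Fin n → ℕ) (s : ℕ) (Act : Finset (Fin n)) (ms : ℕ) (hm : 32 * Act.card + s * ms ≤ n)
    (S : Fin n → Finset (Fin n))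
    (hS : ∀ t, ∀ h ∈ S t, t ∈ Act ∧ h ∈ Act ∧ ℓ h < ℓ t) (hs : ∀ v, ℓ v < s)
    (hd : ∀ t, (S t).card ≤ d)
    (hΛ : ∀ B : Finset (Fin n), B.Nonempty → B.card ≤ d → ((1 - q) / q) ^ B.card *
      (univ.filter fun t => B ⊆ S t).card ≤ (ms : ℝ) / 32)
    (ε : ℝ) (hε : ε ≤ 1) (hsε : 8 * s * ε ≤ 1)
    (h : ((n : ℝ) + 1) ^ d * Real.exp (-(ms * q ^ d / 16)) ≤ ε) :
    Halves (q2 q) S := by
  have hy : 0 ≤ (1 - q) / q := div_nonneg (by linarith) h0.le
  refine layered h0 h1 d ℓ s Act (fun j => 32 * (Act.filter fun v => ℓ v = j).card + ms) ?_ S hS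
    (fun v _ => hs v) hd (fun j _ B => ?_) ε hε hsε fun j _ => ?_
  · rw [sum_add_distrib, ← mul_sum, ← card_eq_sum_card_fiberwise (f := ℓ) (s := Act) (t := range s)
      fun v _ => by simpa using hs v]
    simpa using hm
  · push_cast
    rcases B.eq_empty_or_nonempty with rfl | hB
    · simp only [card_empty, pow_zero, empty_subset, filter_true, one_mul]
      have : (0 : ℝ) ≤ ms := by positivity
      linarith
    by_cases hBd : B.card ≤ d
    · have a1 := hΛ B hB hBd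
      have a2 : (((Act.filter fun v => ℓ v = j).filter fun t => B ⊆ S t).card : ℝ) ≤
          (univ.filter fun t => B ⊆ S t).card :=
        Nat.cast_le.2 (card_le_card (filter_subset_filter _ (subset_univ _)))
      have a3 := mul_le_mul_of_nonneg_left a2 (pow_nonneg hy B.card)
      have : (0 : ℝ) ≤ (Act.filter fun v => ℓ v = j).card := by positivity
      linarith
    · rw [filter_false_of_mem fun t _ hB => hBd ((card_le_card hB).trans (hd t))]
      simp only [card_empty, Nat.cast_zero, mul_zero]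
      positivity
  · refine le_trans (mul_le_mul_of_nonneg_left (Real.exp_le_exp.2 ?_) (by positivity)) h
    push_cast
    have : (0 : ℝ) ≤ (Act.filter fun v => ℓ v = j).card * q ^ d := by positivity
    linarith

lemma eps_ok (z d ms : ℕ) (q : ℝ) (hq : 0 ≤ q) (hz : 3 ≤ z) (hn : n < 2 ^ (10 * z)) (hd : d ≤ z)
    (hqd : 1 ≤ z * q ^ d) (hms : 2560 * z ^ 7 ≤ ms) :
    ((n : ℝ) + 1) ^ d * Real.exp (-(ms * q ^ d / 16)) ≤ 1 / (6400 * z ^ 2) := by
  have hz' : (3 : ℝ) ≤ z := by exact_mod_cast hz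
  have a1 : ((n : ℝ) + 1) ^ d ≤ Real.exp (10 * z ^ 2) := by
    have b1 : (n : ℝ) + 1 ≤ 2 ^ (10 * z) := by exact_mod_cast hn
    have b2 : (2 : ℝ) ≤ Real.exp 1 := by linarith [Real.exp_one_gt_d9]
    calc ((n : ℝ) + 1) ^ d ≤ ((n : ℝ) + 1) ^ z :=
          pow_le_pow_right₀ (by linarith [(by positivity : (0 : ℝ) ≤ n)]) hd
      _ ≤ (Real.exp 1 ^ (10 * z)) ^ z := by
          refine pow_le_pow_left₀ (by positivity) (b1.trans ?_) _
          exact pow_le_pow_left₀ (by norm_num) b2 _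
      _ = _ := by
          rw [← pow_mul, ← Real.exp_nat_mul]; congr 1; push_cast; ring
  have a2 : 160 * (z : ℝ) ^ 6 ≤ ms * q ^ d / 16 := by
    have b1 : 2560 * (z : ℝ) ^ 7 ≤ ms := by exact_mod_cast hms
    have b2 : 0 ≤ q ^ d := by positivity
    have b3 := mul_le_mul_of_nonneg_right b1 b2
    have b4 := mul_le_mul_of_nonneg_left hqd (by positivity : (0 : ℝ) ≤ 2560 * (z : ℝ) ^ 6)
    nlinarith
  have a3 : 6400 * (z : ℝ) ^ 2 ≤ Real.exp (160 * z ^ 6 - 10 * z ^ 2) := by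
    have b1 := Real.add_one_le_exp (160 * (z : ℝ) ^ 6 - 10 * z ^ 2)
    have b2 : (81 : ℝ) ≤ z ^ 4 := by
      calc (81 : ℝ) = 3 ^ 4 := by norm_num
        _ ≤ _ := pow_le_pow_left₀ (by norm_num) hz' 4
    have b3 := mul_le_mul_of_nonneg_left b2 (by positivity : (0 : ℝ) ≤ z ^ 2)
    nlinarith
  calc _ ≤ Real.exp (10 * z ^ 2) * Real.exp (-(160 * z ^ 6)) := by gcongr
    _ = 1 / Real.exp (160 * z ^ 6 - 10 * z ^ 2) := by
        rw [one_div, ← Real.exp_neg, ← Real.exp_add]; congr 1; ring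
    _ ≤ _ := one_div_le_one_div_of_le (by positivity) a3

lemma regime2 (G : SimpleGraph (Fin n)) (HS : Finset (EdgeSlot n))
    (hHS : ∀ z, z ∈ HS ↔ z.1 ∈ G.edgeSet) {r : ℝ} (hr : 0 < r) (hr' : 1000 * r ≤ 1)
    (hsp : Spread (H0076.act n) HS r) (D : ℕ) (hD : n * r ^ D ≤ 1) (hD' : 1 < n * r ^ (D - 1))
    (hD1 : 100 < D) (z : ℕ) (hz1 : n ≤ z ^ 10) (hz2 : z ^ 10 ≤ 1024 * n) (hz3 : 2 ^ 33 ≤ z) :
    Pieces G (q2 (1000 * r)) := by
  classical
  have hJ : n < 2 ^ (10 * z) := by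
    refine lt_of_le_of_lt hz1 ?_
    rw [mul_comm, pow_mul]
    exact Nat.pow_lt_pow_left Nat.lt_two_pow_self (by norm_num)
  obtain ⟨ℓ, Out, rk, -, h1, h2, h3, h4, h5, h6, -, -⟩ :=
    orient G HS hHS hr.le (by linarith) hsp D (by omega) hD _ hJ
  set q := 1000 * r with hq
  have hq0 : 0 < q := by positivity
  set d := (D - 1) / 10 with hd
  have hr1 : 1 ≤ 1 / r := by rw [le_div_iff₀ hr]; linarith
  have hY : (1 / r) ^ d ≤ z := by
    refine le_of_pow_le_pow_left₀ (n := 10) (by norm_num) (by positivity) ?_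
    have b1 : (n : ℝ) ≤ z ^ 10 := by exact_mod_cast hz1
    refine le_trans ?_ b1
    rw [← pow_mul]
    refine (pow_le_pow_right₀ hr1 (by omega : d * 10 ≤ D - 1)).trans ?_
    rw [one_div, inv_pow, inv_le_iff_one_le_mul₀ (by positivity)]
    exact hD'.le
  have hdz : d ≤ z := by
    have b1 : (2 : ℝ) ≤ 1 / r := by rw [le_div_iff₀ hr]; linarith
    have b2 : (2 : ℝ) ^ d ≤ z := (pow_le_pow_left₀ (by norm_num) b1 d).trans hY
    have b3 : 2 ^ d ≤ z := by exact_mod_cast b2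
    exact Nat.lt_two_pow_self.le.trans b3
  have hqd : 1 ≤ z * q ^ d := by
    have b1 : r ^ d ≤ q ^ d := pow_le_pow_left₀ hr.le (by linarith) d
    rw [one_div, inv_pow, inv_le_iff_one_le_mul₀ (by positivity)] at hY
    exact hY.trans (mul_le_mul_of_nonneg_left b1 (by positivity))
  have hy0 : 0 ≤ (1 - q) / q := div_nonneg (by linarith) hq0.le
  have hy1 : (1 - q) / q ≤ 1 / r := by
    rw [div_le_div_iff₀ hq0 hr]; nlinarith
  have hyr : (1 - q) / q * r ≤ 1 / 1000 := by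
    rw [div_mul_eq_mul_div, div_le_iff₀ hq0]; nlinarith
  have hyz : ∀ k ≤ d, ((1 - q) / q) ^ k ≤ z := fun k hk =>
    (pow_le_pow_left₀ hy0 hy1 k).trans ((pow_le_pow_right₀ hr1 hk).trans hY)
  have hz9 : 2 ^ 23 * z ^ 9 ≤ n := by
    have : 2 ^ 33 * z ^ 9 ≤ z ^ 10 := by
      rw [pow_succ' z 9]; exact Nat.mul_le_mul_right _ hz3
    omega
  have hz0 : 1 ≤ z := le_trans (by norm_num) hz3
  have hz79 : z ^ 7 ≤ z ^ 9 := Nat.pow_le_pow_right hz0 (by norm_num)
  have hz7 : 1 ≤ z ^ 7 := Nat.one_le_pow _ _ hz0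
  set g := n / 128 with hg
  have hg0 : 0 < g := by omega
  let hub : Fin n → Prop := fun h => z ^ 5 < (univ.filter fun t => h ∈ Out t).card
  have hhub : (univ.filter hub).card ≤ 80 * z ^ 6 := by
    have b1 : (univ.filter hub).card * z ^ 5 ≤ ∑ h, (univ.filter fun t => h ∈ Out t).card := by
      rw [← smul_eq_mul, ← sum_const]
      exact (sum_le_sum fun h hh => (mem_filter.1 hh).2.le).trans
        (sum_le_sum_of_subset (subset_univ _))
    have b2 : ∑ h, (univ.filter fun t => h ∈ Out t).card = ∑ t, (Out t).card := by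
      simp only [card_filter]
      rw [sum_comm]
      exact sum_congr rfl fun t _ => by simp
    have b3 : ∑ t, (Out t).card ≤ n * (80 * z) := by
      refine (sum_le_sum (g := fun _ => 80 * z) fun t _ => ?_).trans (by simp)
      have := h4 t; omega
    refine Nat.le_of_mul_le_mul_right (c := z ^ 5) ?_ (by positivity)
    calc _ ≤ n * (80 * z) := by omega
      _ ≤ z ^ 10 * (80 * z) := Nat.mul_le_mul_right _ hz1
      _ = _ := by ring
  refine ⟨Out, fun t h => (rk t h / d, t.val / g, h.val / g, decide (hub h ∧ ¬ hub t)), h2,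
    fun t h hh => ?_, fun κ => ?_⟩
  · have b1 : ∀ v : Fin n, v.val / g < 400 := fun v => by
      rw [Nat.div_lt_iff_lt_mul hg0]; have := v.2; omega
    refine ⟨?_, b1 t, b1 h⟩
    dsimp only
    rw [Nat.div_lt_iff_lt_mul (by omega)]
    have := h6 t h hh
    omega
  obtain ⟨i, a, b, ty⟩ := κ
  set S : Fin n → Finset (Fin n) := fun t => (Out t).filter fun h =>
    (rk t h / d, t.val / g, h.val / g, decide (hub h ∧ ¬ hub t)) = (i, a, b, ty) with hSdef
  have hSm : ∀ t, ∀ h ∈ S t, h ∈ Out t ∧ rk t h / d = i ∧ t.val / g = a ∧ h.val / g = b ∧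
      decide (hub h ∧ ¬ hub t) = ty := by
    intro t h hh
    simpa only [hSdef, mem_filter, Prod.mk.injEq] using hh
  set Act : Finset (Fin n) := (univ.filter fun v : Fin n => v.val / g = a) ∪
    (univ.filter fun v : Fin n => v.val / g = b) with hAct
  have hActc : Act.card ≤ 2 * g := by
    have b1 := fun k => card_div_le (univ : Finset (Fin n)) Fin.val Fin.val_injective.injOn g k hg0
    have := card_union_le (univ.filter fun v : Fin n => v.val / g = a)
      (univ.filter fun v : Fin n => v.val / g = b)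
    have := b1 a; have := b1 b
    rw [hAct]
    omega
  have hSA : ∀ t, ∀ h ∈ S t, t ∈ Act ∧ h ∈ Act := by
    intro t h hh
    obtain ⟨-, -, c1, c2, -⟩ := hSm t h hh
    simp [hAct, c1, c2]
  have hSd : ∀ t, (S t).card ≤ d := by
    intro t
    refine le_trans (card_le_card fun h hh => ?_) (card_div_le (Out t) (rk t) (h5 t) d i (by omega))
    exact mem_filter.2 ⟨(hSm t h hh).1, (hSm t h hh).2.1⟩
  have hz' : (1 : ℝ) ≤ z := by exact_mod_cast hz0
  have hε : 1 / (6400 * (z : ℝ) ^ 2) ≤ 1 := by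
    rw [div_le_one (by positivity)]; nlinarith
  have hsε : ∀ s : ℕ, s ≤ 800 * z ^ 2 → 8 * s * (1 / (6400 * (z : ℝ) ^ 2)) ≤ 1 := by
    intro s hs
    have : (s : ℝ) ≤ 800 * z ^ 2 := by exact_mod_cast hs
    rw [mul_one_div, div_le_one (by positivity)]; linarith
  cases ty
  · have hs : 4 * D * (10 * z) ≤ 800 * z ^ 2 := by
      have : D ≤ 20 * z := by omega
      calc 4 * D * (10 * z) ≤ 4 * (20 * z) * (10 * z) := by gcongr
        _ = _ := by ring
    refine layered2 hq0 hr' d ℓ (4 * D * (10 * z)) Act (2560 * z ^ 7) ?_ S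
      (fun t h hh => ⟨(hSA t h hh).1, (hSA t h hh).2, (h3 t h (hSm t h hh).1).2⟩) h1 hSd
      (fun B hB hBd => ?_) _ hε (hsε _ hs)
      (eps_ok z d _ q hq0.le (le_trans (by norm_num) hz3) hJ hdz hqd le_rfl)
    · have : 4 * D * (10 * z) * (2560 * z ^ 7) ≤ 2048000 * z ^ 9 := by
        calc _ ≤ 800 * z ^ 2 * (2560 * z ^ 7) := Nat.mul_le_mul_right _ hs
          _ = _ := by ring
      omega
    · obtain ⟨x, hx⟩ := hB
      have b1 : (univ.filter fun t => B ⊆ S t).card ≤ 80 * z ^ 6 := by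
        by_cases hh : hub x
        · refine le_trans (card_le_card fun t ht => ?_) hhub
          have := (hSm t x ((mem_filter.1 ht).2 hx)).2.2.2.2
          simpa [hh] using this
        · have c1 : (univ.filter fun t => x ∈ Out t).card ≤ z ^ 5 := not_lt.1 hh
          have c2 : z ^ 5 ≤ z ^ 6 := Nat.pow_le_pow_right hz0 (by norm_num)
          refine le_trans (card_le_card fun t ht => ?_) (c1.trans (by omega))
          exact mem_filter.2 ⟨mem_univ _, (hSm t x ((mem_filter.1 ht).2 hx)).1⟩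
      have b2 : ((univ.filter fun t => B ⊆ S t).card : ℝ) ≤ 80 * z ^ 6 := by exact_mod_cast b1
      calc _ ≤ (z : ℝ) * (80 * z ^ 6) := mul_le_mul (hyz _ hBd) b2 (by positivity) (by positivity)
        _ = _ := by push_cast; ring
  · have hms : 2560 * z ^ 7 ≤ n / 4 := by omega
    refine layered2 hq0 hr' d (fun v => if hub v then 0 else 1) 2 Act (n / 4) (by omega) S
      (fun t h hh => ⟨(hSA t h hh).1, (hSA t h hh).2, ?_⟩) (fun v => by split_ifs <;> norm_num) hSd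
      (fun B hB hBd => ?_) _ hε (hsε _ (le_trans (by norm_num) (Nat.mul_le_mul_left 800 (Nat.one_le_pow 2 z hz0))))
      (eps_ok z d _ q hq0.le (le_trans (by norm_num) hz3) hJ hdz hqd hms)
    · have := (hSm t h hh).2.2.2.2
      rw [decide_eq_true_eq] at this
      simp [this.1, this.2]
    · by_cases hL : 2 * n ^ B.card ≤ 2 ^ (univ.filter fun t => B ⊆ S t).card
      · have b1 := codeg_bound G HS hHS hr.le hsp B (univ.filter fun t => B ⊆ S t) (fun x hx t ht =>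
          (h3 t x (hSm t x ((mem_filter.1 ht).2 hx)).1).1.symm) hL
        have b3 : ((1 - q) / q * r) ^ B.card ≤ 1 / 1000 :=
          (pow_le_of_le_one (mul_nonneg hy0 hr.le) (hyr.trans (by norm_num))
            hB.card_pos.ne').trans hyr
        have b4 : (6 * n : ℝ) / 1000 ≤ ((n / 4 : ℕ) : ℝ) / 32 := by
          have c1 : 192 * n ≤ 1000 * (n / 4) := by omega
          have c2 : (192 * n : ℝ) ≤ 1000 * ((n / 4 : ℕ) : ℝ) := by exact_mod_cast c1
          linarith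
        calc _ ≤ ((1 - q) / q) ^ B.card * (6 * n * r ^ B.card) :=
              mul_le_mul_of_nonneg_left b1 (by positivity)
          _ = ((1 - q) / q * r) ^ B.card * (6 * n) := by rw [mul_pow]; ring
          _ ≤ 1 / 1000 * (6 * n) := mul_le_mul_of_nonneg_right b3 (by positivity)
          _ ≤ _ := by linarith
      · have b1 : (univ.filter fun t => B ⊆ S t).card ≤ 80 * z ^ 6 := by
          have c1 : n ^ B.card ≤ 2 ^ (10 * z * z) := by
            calc n ^ B.card ≤ (2 ^ (10 * z)) ^ B.card := Nat.pow_le_pow_left hJ.le _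
              _ ≤ (2 ^ (10 * z)) ^ z := Nat.pow_le_pow_right (by positivity) (hBd.trans hdz)
              _ = _ := by rw [← pow_mul]
          have c2 : 2 ^ (univ.filter fun t => B ⊆ S t).card < 2 ^ (10 * z * z + 1) := by
            rw [pow_succ]; omega
          have c3 := (Nat.pow_lt_pow_iff_right (by norm_num)).1 c2
          have c4 : z ^ 2 ≤ z ^ 6 := Nat.pow_le_pow_right hz0 (by norm_num)
          have c5 : 10 * z * z = 10 * z ^ 2 := by ring
          omega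
        have b2 : ((univ.filter fun t => B ⊆ S t).card : ℝ) ≤ 80 * z ^ 6 := by exact_mod_cast b1
        have b3 : (2560 * (z : ℝ) ^ 7) ≤ ((n / 4 : ℕ) : ℝ) := by exact_mod_cast hms
        calc _ ≤ (z : ℝ) * (80 * z ^ 6) := mul_le_mul (hyz _ hBd) b2 (by positivity) (by positivity)
          _ = 2560 * (z : ℝ) ^ 7 / 32 := by ring
          _ ≤ _ := by linarith

lemma pieces (hn : 2 ≤ n) (G : SimpleGraph (Fin n)) (hG : G ≠ ⊥) (HS : Finset (EdgeSlot n))
    (hHS : ∀ z, z ∈ HS ↔ z.1 ∈ G.edgeSet) {r : ℝ} (hr : 0 < r) (N : ℕ) (hN : (2 ^ 33) ^ 10 ≤ N)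
    (L : ℝ) (hL : 2000 ≤ L) (hL' : 4 * (N : ℝ) ^ 2 ≤ L) (hr' : L * r ≤ 1)
    (hsp : Spread (H0076.act n) HS r) : Pieces G (L * r) := by
  classical
  have hr2 : 2000 * r ≤ L * r := mul_le_mul_of_nonneg_right hL hr.le
  have hex : ∃ D : ℕ, n * r ^ D ≤ 1 := by
    obtain ⟨D, hD⟩ := exists_pow_lt_of_lt_one (x := 1 / (n : ℝ)) (y := r) (by positivity)
      (by linarith)
    rw [lt_div_iff₀ (by positivity)] at hD
    exact ⟨D, by linarith⟩
  obtain ⟨D, hD, hD0, hD'⟩ : ∃ D : ℕ, n * r ^ D ≤ 1 ∧ 0 < D ∧ 1 < n * r ^ (D - 1) := by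
    have hD := Nat.find_spec hex
    have hD0 : 0 < Nat.find hex := by
      rw [Nat.pos_iff_ne_zero]
      intro h
      rw [h, pow_zero, mul_one] at hD
      have : (2 : ℝ) ≤ n := by exact_mod_cast hn
      linarith
    exact ⟨_, hD, hD0, not_le.1 (Nat.find_min hex (by omega))⟩
  by_cases hD1 : D ≤ 100
  · exact (regime1 G HS hHS hr (by linarith) hsp D hD0 hD hD1).mono (by positivity)
      (by linarith) hr'
  have hbig : N < n := by
    by_contra hc
    have hc' : (n : ℝ) ≤ N := by exact_mod_cast not_lt.1 hc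
    obtain ⟨a, b, hab⟩ := SimpleGraph.ne_bot_iff_exists_adj.1 hG
    have h1 := biclique G HS hHS hsp {a} {b} (by simpa using hab.ne) (by simpa using hab)
    simp only [card_singleton, Nat.factorial_one, Nat.cast_one, mul_one, pow_one] at h1
    have h2 : (n : ℝ) ^ (1 + 1) ≤ N ^ 2 := pow_le_pow_left₀ (by positivity) hc' _
    have h3 := mul_le_mul_of_nonneg_right h2 (by positivity : 0 ≤ 2 * r)
    have h4 := mul_le_mul_of_nonneg_right hL' hr.le
    linarith
  have hez : ∃ z : ℕ, n ≤ z ^ 10 := ⟨n, Nat.le_self_pow (by norm_num) n⟩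
  obtain ⟨z, hz1, hz3, hz4⟩ : ∃ z : ℕ, n ≤ z ^ 10 ∧ 2 ^ 33 < z ∧ (z - 1) ^ 10 < n := by
    have hz1 := Nat.find_spec hez
    have hz3 : 2 ^ 33 < Nat.find hez :=
      lt_of_pow_lt_pow_left₀ 10 (by positivity) ((hN.trans_lt hbig).trans_le hz1)
    exact ⟨_, hz1, hz3, not_le.1 (Nat.find_min hez (by omega))⟩
  have hz2 : z ^ 10 ≤ 1024 * n := by
    calc z ^ 10 ≤ (2 * (z - 1)) ^ 10 := Nat.pow_le_pow_left (by omega) _
      _ = 1024 * (z - 1) ^ 10 := by ring
      _ ≤ _ := Nat.mul_le_mul_left _ hz4.le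
  exact (regime2 G HS hHS hr (by linarith) hsp D hD hD' (by omega) z hz1 hz2 hz3.le).mono
    (q2_nonneg (by positivity) (by linarith)) (q2_le.trans (by linarith)) hr'

end Crest.Agent.H0073
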