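import Mathlib
import Crest.Prelude.Def_FinProb

/-! Elementary toolkit for Bernoulli product measures. -/

namespace Crest.Agent.H0073
open Finset Crest.FinProb

/-- indicator of a proposition -/
noncomputable def ind (P : Prop) : ℝ := by classical exact if P then 1 else 0

lemma ind_pos {P : Prop} (h : P) : ind P = 1 := by simp [ind, h]
lemma ind_neg {P : Prop} (h : ¬ P) : ind P = 0 := by simp [ind, h]
lemma ind_nonneg (P : Prop) : 0 ≤ ind P := by unfold ind; split_ifs <;> norm_num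
lemma ind_le_one (P : Prop) : ind P ≤ 1 := by unfold ind; split_ifs <;> norm_num
lemma ind_mono {P Q : Prop} (h : P → Q) : ind P ≤ ind Q := by
  by_cases hP : P
  · rw [ind_pos hP, ind_pos (h hP)]
  · rw [ind_neg hP]; exact ind_nonneg _
lemma ind_congr {P Q : Prop} (h : P ↔ Q) : ind P = ind Q := by
  rw [propext h]
lemma ind_and (P Q : Prop) : ind (P ∧ Q) = ind P * ind Q := by
  by_cases hP : P <;> by_cases hQ : Q <;> simp [ind, hP, hQ]
lemma ind_not (P : Prop) : ind (¬ P) = 1 - ind P := by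
  by_cases hP : P <;> simp [ind, hP]
lemma ind_mul_self (P : Prop) : ind P * ind P = ind P := by
  by_cases hP : P <;> simp [ind, hP]
lemma ind_or_le (P Q : Prop) : ind (P ∨ Q) ≤ ind P + ind Q := by
  by_cases hP : P <;> by_cases hQ : Q <;> simp [ind, hP, hQ]
lemma ind_eq_ite (P : Prop) [Decidable P] : ind P = if P then 1 else 0 := by
  by_cases hP : P <;> simp [ind, hP]
lemma ind_forall {ι : Type*} (s : Finset ι) (P : ι → Prop) :
    ind (∀ i ∈ s, P i) = ∏ i ∈ s, ind (P i) := by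
  by_cases h : ∀ i ∈ s, P i
  · rw [ind_pos h]; symm; exact prod_eq_one fun i hi => ind_pos (h i hi)
  · rw [ind_neg h]; push Not at h; obtain ⟨i, hi, hP⟩ := h
    symm; exact prod_eq_zero hi (ind_neg hP)
lemma ind_exists_le {ι : Type*} (s : Finset ι) (P : ι → Prop) :
    ind (∃ i ∈ s, P i) ≤ ∑ i ∈ s, ind (P i) := by
  by_cases h : ∃ i ∈ s, P i
  · rw [ind_pos h]; obtain ⟨i, hi, hP⟩ := h
    calc (1 : ℝ) = ind (P i) := (ind_pos hP).symm
      _ ≤ _ := single_le_sum (f := fun i => ind (P i)) (fun _ _ => ind_nonneg _) hi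
  · rw [ind_neg h]; exact sum_nonneg fun _ _ => ind_nonneg _
lemma sum_ind {ι : Type*} (s : Finset ι) (P : ι → Prop) [DecidablePred P] :
    ∑ i ∈ s, ind (P i) = ((s.filter P).card : ℝ) := by
  rw [card_filter]; push_cast
  exact sum_congr rfl fun i _ => ind_eq_ite _

section
variable {α : Type*} [Fintype α] [DecidableEq α]

/-- expectation under the Bernoulli product measure -/
noncomputable def E (q : ℝ) (f : (α → Bool) → ℝ) : ℝ :=
  ∑ ω : α → Bool, bernoulliWeight q ω * f ω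

/-- probability under the Bernoulli product measure -/
noncomputable def Pr (q : ℝ) (P : (α → Bool) → Prop) : ℝ := E q (fun ω => ind (P ω))

omit [DecidableEq α] in
lemma bw_nonneg {q : ℝ} (h0 : 0 ≤ q) (h1 : q ≤ 1) (ω : α → Bool) : 0 ≤ bernoulliWeight q ω := by
  unfold bernoulliWeight
  refine prod_nonneg fun i _ => ?_
  split_ifs <;> linarith

lemma Pr_eq (q : ℝ) (S : Set (α → Bool)) : bernoulliProb q S = Pr q (fun ω => ω ∈ S) := by
  unfold bernoulliProb Pr E
  rw [sum_filter]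
  refine sum_congr rfl fun ω _ => ?_
  by_cases h : ω ∈ S <;> simp [h, ind]

lemma E_prod (q : ℝ) (g : α → Bool → ℝ) :
    E q (fun ω => ∏ a, g a (ω a)) = ∏ a, (q * g a true + (1 - q) * g a false) := by
  unfold E bernoulliWeight
  have h : ∀ a, q * g a true + (1 - q) * g a false
      = ∑ b : Bool, (if b then q else 1 - q) * g a b := by
    intro a; simp
  simp only [h]
  rw [Fintype.prod_sum]
  refine sum_congr rfl fun ω _ => ?_
  rw [prod_mul_distrib]

lemma E_const (q c : ℝ) : E (α := α) q (fun _ => c) = c := by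
  have h := E_prod (α := α) q (fun _ _ => 1)
  simp only [prod_const_one, mul_one, add_sub_cancel] at h
  unfold E at h ⊢
  simp only [mul_one] at h
  rw [← sum_mul, h, one_mul]

lemma E_add (q : ℝ) (f g : (α → Bool) → ℝ) :
    E q (fun ω => f ω + g ω) = E q f + E q g := by
  unfold E; simp only [mul_add, sum_add_distrib]

lemma E_sub (q : ℝ) (f g : (α → Bool) → ℝ) :
    E q (fun ω => f ω - g ω) = E q f - E q g := by
  unfold E; simp only [mul_sub, sum_sub_distrib]

lemma E_const_mul (q c : ℝ) (f : (α → Bool) → ℝ) :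
    E q (fun ω => c * f ω) = c * E q f := by
  unfold E; rw [mul_sum]; exact sum_congr rfl fun _ _ => by ring

lemma E_mul_const (q c : ℝ) (f : (α → Bool) → ℝ) :
    E q (fun ω => f ω * c) = E q f * c := by
  unfold E; rw [sum_mul]; exact sum_congr rfl fun _ _ => by ring

lemma E_sum {ι : Type*} (q : ℝ) (s : Finset ι) (f : ι → (α → Bool) → ℝ) :
    E q (fun ω => ∑ i ∈ s, f i ω) = ∑ i ∈ s, E q (f i) := by
  unfold E; simp only [mul_sum]; rw [sum_comm]

lemma E_mono {q : ℝ} (h0 : 0 ≤ q) (h1 : q ≤ 1) {f g : (α → Bool) → ℝ} (h : ∀ ω, f ω ≤ g ω) :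
    E q f ≤ E q g :=
  sum_le_sum fun ω _ => mul_le_mul_of_nonneg_left (h ω) (bw_nonneg h0 h1 ω)

lemma E_nonneg {q : ℝ} (h0 : 0 ≤ q) (h1 : q ≤ 1) {f : (α → Bool) → ℝ} (h : ∀ ω, 0 ≤ f ω) :
    0 ≤ E q f :=
  sum_nonneg fun ω _ => mul_nonneg (bw_nonneg h0 h1 ω) (h ω)

lemma E_congr (q : ℝ) {f g : (α → Bool) → ℝ} (h : ∀ ω, f ω = g ω) : E q f = E q g := by
  rw [funext h]

lemma Pr_nonneg {q : ℝ} (h0 : 0 ≤ q) (h1 : q ≤ 1) (P : (α → Bool) → Prop) : 0 ≤ Pr q P :=
  E_nonneg h0 h1 fun _ => ind_nonneg _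

lemma Pr_le_one {q : ℝ} (h0 : 0 ≤ q) (h1 : q ≤ 1) (P : (α → Bool) → Prop) : Pr q P ≤ 1 := by
  calc Pr q P ≤ E (α := α) q (fun _ => 1) := E_mono h0 h1 fun _ => ind_le_one _
    _ = 1 := E_const _ _

lemma Pr_mono {q : ℝ} (h0 : 0 ≤ q) (h1 : q ≤ 1) {P Q : (α → Bool) → Prop} (h : ∀ ω, P ω → Q ω) :
    Pr q P ≤ Pr q Q :=
  E_mono h0 h1 fun ω => ind_mono (h ω)

lemma Pr_congr (q : ℝ) {P Q : (α → Bool) → Prop} (h : ∀ ω, P ω ↔ Q ω) : Pr q P = Pr q Q :=
  E_congr q fun ω => ind_congr (h ω)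

lemma Pr_not (q : ℝ) (P : (α → Bool) → Prop) : Pr q (fun ω => ¬ P ω) = 1 - Pr q P := by
  unfold Pr
  simp only [ind_not]
  rw [E_sub, E_const]

lemma Pr_true (q : ℝ) {P : (α → Bool) → Prop} (h : ∀ ω, P ω) : Pr q P = 1 := by
  unfold Pr
  rw [E_congr q (g := fun _ => 1) fun ω => ind_pos (h ω), E_const]

lemma Pr_exists_le {ι : Type*} {q : ℝ} (h0 : 0 ≤ q) (h1 : q ≤ 1) (s : Finset ι)
    (P : ι → (α → Bool) → Prop) :
    Pr q (fun ω => ∃ i ∈ s, P i ω) ≤ ∑ i ∈ s, Pr q (P i) := by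
  unfold Pr
  rw [← E_sum]
  exact E_mono h0 h1 fun ω => ind_exists_le s fun i => P i ω

lemma Pr_or_le {q : ℝ} (h0 : 0 ≤ q) (h1 : q ≤ 1) (P Q : (α → Bool) → Prop) :
    Pr q (fun ω => P ω ∨ Q ω) ≤ Pr q P + Pr q Q := by
  unfold Pr
  rw [← E_add]
  exact E_mono h0 h1 fun ω => ind_or_le _ _

lemma exists_of_Pr_lt_one {q : ℝ} {P : (α → Bool) → Prop} (h : Pr q P < 1) : ∃ ω, ¬ P ω := by
  by_contra hc
  push Not at hc
  rw [Pr_true q hc] at h
  exact lt_irrefl _ h

/-- Markov in exponential form -/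
lemma Pr_le_E {q : ℝ} (h0 : 0 ≤ q) (h1 : q ≤ 1) {P : (α → Bool) → Prop} {f : (α → Bool) → ℝ}
    (hf : ∀ ω, 0 ≤ f ω) (hP : ∀ ω, P ω → 1 ≤ f ω) : Pr q P ≤ E q f := by
  refine E_mono h0 h1 fun ω => ?_
  by_cases h : P ω
  · rw [ind_pos h]; exact hP ω h
  · rw [ind_neg h]; exact hf ω

/-- Cauchy–Schwarz with a support -/
lemma sq_E_le {q : ℝ} (h0 : 0 ≤ q) (h1 : q ≤ 1) {P : (α → Bool) → Prop} {f : (α → Bool) → ℝ}
    (hP : ∀ ω, ¬ P ω → f ω = 0) : (E q f) ^ 2 ≤ Pr q P * E q (fun ω => f ω ^ 2) := by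
  unfold Pr E
  refine sum_sq_le_sum_mul_sum_of_sq_le_mul _
    (fun ω _ => mul_nonneg (bw_nonneg h0 h1 ω) (ind_nonneg _))
    (fun ω _ => mul_nonneg (bw_nonneg h0 h1 ω) (sq_nonneg _)) fun ω _ => ?_
  by_cases h : P ω
  · simp only [ind_pos h]; apply le_of_eq; ring
  · simp [hP ω h, ind_neg h]

/-- generic push-forward -/
lemma push {Ω Ω' : Type*} [Fintype Ω] [Fintype Ω'] (w : Ω → ℝ) (w' : Ω' → ℝ) (Φ : Ω → Ω')
    (h : ∀ η, ∑ ω, w ω * ind (Φ ω = η) = w' η) (f : Ω' → ℝ) :
    ∑ ω, w ω * f (Φ ω) = ∑ η, w' η * f η := by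
  classical
  simp only [← h, sum_mul]
  rw [sum_comm]
  refine sum_congr rfl fun ω _ => ?_
  rw [Finset.sum_eq_single (Φ ω)]
  · rw [ind_pos rfl]; ring
  · intro η _ hη; rw [ind_neg (Ne.symm hη)]; ring
  · simp

omit [DecidableEq α] in
lemma ind_eq_fun (ω η : α → Bool) : ind (ω = η) = ∏ a, ind (ω a = η a) := by
  rw [← ind_forall]
  exact ind_congr ⟨fun h a _ => by rw [h], fun h => funext fun a => h a (mem_univ _)⟩

lemma E_comp_inj {β : Type*} [Fintype β] [DecidableEq β] (q : ℝ) (ι : β → α)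
    (hι : Function.Injective ι) (f : (β → Bool) → ℝ) :
    E q (fun ω : α → Bool => f (ω ∘ ι)) = E q f := by
  unfold E
  refine push (fun ω : α → Bool => bernoulliWeight q ω) (fun η => bernoulliWeight q η)
    (fun ω => ω ∘ ι) (fun η => ?_) f
  let G : α → Bool → ℝ := Function.extend ι (fun b x => ind (x = η b)) (fun _ _ => 1)
  have hG : ∀ b, G (ι b) = fun x => ind (x = η b) := fun b => hι.extend_apply _ _ b
  have hG' : ∀ a, (¬ ∃ b, ι b = a) → G a = fun _ => 1 := fun a ha =>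
    Function.extend_apply' _ _ a ha
  have h1 : ∀ ω : α → Bool, ind (ω ∘ ι = η) = ∏ a, G a (ω a) := by
    intro ω
    rw [ind_eq_fun]
    refine Fintype.prod_of_injective ι hι _ _ (fun a ha => ?_) (fun b => ?_)
    · rw [hG' a (by simpa using ha)]
    · rw [hG]; rfl
  simp only [h1]
  have h2 := E_prod q G
  unfold E at h2
  rw [h2]
  unfold bernoulliWeight
  symm
  refine Fintype.prod_of_injective ι hι _ _ (fun a ha => ?_) (fun b => ?_)
  · rw [hG' a (by simpa using ha)]; ring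
  · rw [hG]
    cases η b <;> simp [ind]

lemma E_curry {A X : Type*} [Fintype A] [DecidableEq A] [Fintype X] [DecidableEq X] (q : ℝ)
    (g : A → (X → Bool) → ℝ) :
    E q (fun ω : A × X → Bool => ∏ a, g a (fun x => ω (a, x))) = ∏ a, E q (g a) := by
  unfold E
  rw [Fintype.prod_sum]
  refine Fintype.sum_equiv (Equiv.curry A X Bool) _ _ fun ω => ?_
  rw [prod_mul_distrib]
  unfold bernoulliWeight
  rw [Fintype.prod_prod_type]
  rfl

/-- union of two independent random sets -/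
lemma E_union (q₁ q₂ : ℝ) (f : (α → Bool) → ℝ) :
    E q₁ (fun ω => E q₂ (fun ω' => f (fun a => ω a || ω' a))) = E (1 - (1 - q₁) * (1 - q₂)) f := by
  have h := push (fun p : (α → Bool) × (α → Bool) => bernoulliWeight q₁ p.1 * bernoulliWeight q₂ p.2)
    (fun η => bernoulliWeight (1 - (1 - q₁) * (1 - q₂)) η) (fun p a => p.1 a || p.2 a) ?_ f
  · unfold E
    rw [← h, Fintype.sum_prod_type]
    refine sum_congr rfl fun ω _ => ?_
    rw [mul_sum]
    exact sum_congr rfl fun _ _ => by ring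
  intro η
  rw [Fintype.sum_prod_type]
  have h1 : ∀ ω : α → Bool, ∑ ω' : α → Bool, bernoulliWeight q₁ ω * bernoulliWeight q₂ ω' *
      ind ((fun a => ω a || ω' a) = η) = bernoulliWeight q₁ ω *
        ∏ a, (q₂ * ind ((ω a || true) = η a) + (1 - q₂) * ind ((ω a || false) = η a)) := by
    intro ω
    rw [← E_prod q₂ (fun a x => ind ((ω a || x) = η a))]
    unfold E
    rw [mul_sum]
    refine sum_congr rfl fun ω' _ => ?_
    rw [ind_eq_fun]; ring
  simp only [h1]
  have h2 := E_prod q₁ (fun a x => q₂ * ind ((x || true) = η a) + (1 - q₂) * ind ((x || false) = η a))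
  unfold E at h2
  rw [h2]
  unfold bernoulliWeight
  refine prod_congr rfl fun a _ => ?_
  cases η a <;> simp [ind] <;> ring

/-- independence of functions of complementary coordinate sets -/
lemma E_indep (q : ℝ) (D : α → Prop) [DecidablePred D] (f g : (α → Bool) → ℝ)
    (hf : ∀ ω ω', (∀ a, D a → ω a = ω' a) → f ω = f ω')
    (hg : ∀ ω ω', (∀ a, ¬ D a → ω a = ω' a) → g ω = g ω') :
    E q (fun ω => f ω * g ω) = E q f * E q g := by
  have h1 : E q f * E q g = ∑ p : (α → Bool) × (α → Bool),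
      bernoulliWeight q p.1 * bernoulliWeight q p.2 * (f p.1 * g p.2) := by
    unfold E
    rw [sum_mul_sum, Fintype.sum_prod_type]
    exact sum_congr rfl fun _ _ => sum_congr rfl fun _ _ => by ring
  have h2 : E q (fun ω => f ω * g ω) = ∑ p : (α → Bool) × (α → Bool),
      bernoulliWeight q p.1 * bernoulliWeight q p.2 * (f p.1 * g p.1) := by
    have := E_const (α := α) q 1
    rw [Fintype.sum_prod_type]
    unfold E at this ⊢
    refine sum_congr rfl fun ω _ => ?_
    simp only [mul_one] at this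
    dsimp only
    rw [← sum_mul, ← mul_sum, this, mul_one]
  rw [h1, h2]
  let sw : (α → Bool) × (α → Bool) → (α → Bool) × (α → Bool) := fun p =>
    (fun a => if D a then p.1 a else p.2 a, fun a => if D a then p.2 a else p.1 a)
  have hsw : Function.Involutive sw := by
    intro p
    ext a <;> by_cases h : D a <;> simp [sw, h]
  symm
  refine Fintype.sum_equiv hsw.toPerm _ _ fun p => ?_
  change _ = bernoulliWeight q (sw p).1 * bernoulliWeight q (sw p).2 * (f (sw p).1 * g (sw p).1)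
  rw [hf p.1 (sw p).1 (fun a ha => by simp [sw, ha]), hg p.2 (sw p).1 (fun a ha => by simp [sw, ha])]
  congr 1
  unfold bernoulliWeight
  rw [← prod_mul_distrib, ← prod_mul_distrib]
  refine prod_congr rfl fun a _ => ?_
  by_cases h : D a <;> simp [sw, h, mul_comm]

lemma Pr_sub (q : ℝ) (B : Finset α) : Pr q (fun ω => ∀ a ∈ B, ω a = true) = q ^ B.card := by
  unfold Pr
  have h : ∀ ω : α → Bool, ind (∀ a ∈ B, ω a = true)
      = ∏ a, (if a ∈ B then ind (ω a = true) else 1) := by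
    intro ω
    rw [ind_forall, ← prod_filter]
    simp
  simp only [h]
  rw [E_prod q (fun a x => if a ∈ B then ind (x = true) else 1)]
  have : ∀ a, (q * (if a ∈ B then ind (true = true) else 1) +
      (1 - q) * (if a ∈ B then ind (false = true) else 1)) = if a ∈ B then q else 1 := by
    intro a; by_cases h : a ∈ B <;> simp [h, ind]
  rw [prod_congr rfl (fun a _ => this a), ← prod_filter]; simp

/-- monotonicity in the density for increasing events -/
lemma Pr_mono_q {q q' : ℝ} (h0 : 0 ≤ q) (h : q ≤ q') (h1 : q' ≤ 1) (P : (α → Bool) → Prop)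
    (hP : ∀ ω ω', (∀ a, ω a = true → ω' a = true) → P ω → P ω') : Pr q P ≤ Pr q' P := by
  rcases eq_or_lt_of_le (h.trans h1) with hq | hq
  · have : q' = q := le_antisymm (hq ▸ h1) h
    rw [this]
  set q₂ := (q' - q) / (1 - q) with hq₂
  have hpos : 0 < 1 - q := by linarith
  have e : q' = 1 - (1 - q) * (1 - q₂) := by rw [hq₂]; field_simp; ring
  have a0 : 0 ≤ q₂ := div_nonneg (by linarith) hpos.le
  have a1 : q₂ ≤ 1 := by rw [hq₂, div_le_one hpos]; linarith
  unfold Pr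
  rw [e, ← E_union]
  refine E_mono h0 hq.le fun ω => ?_
  rw [← E_const (α := α) q₂ (ind (P ω))]
  exact E_mono a0 a1 fun ω' => ind_mono (hP _ _ fun a ha => by simp [ha])

end

end Crest.Agent.H0073
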