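import Crest.Agent.H0073.Prob

/-! Signed second moment method. -/

namespace Crest.Agent.H0073
open Finset Crest.FinProb

noncomputable def av (q : ℝ) (b : Bool) : ℝ := if b then (1 - q) / q else -1

section
variable {α : Type*} [Fintype α] [DecidableEq α]

noncomputable def chi (q : ℝ) (B : Finset α) (ω : α → Bool) : ℝ := ∏ x ∈ B, av q (ω x)

/-- the set of heads -/
def st (ω : α → Bool) : Finset α := univ.filter fun a => ω a = true

omit [DecidableEq α] in
@[simp] lemma mem_st {ω : α → Bool} {a : α} : a ∈ st ω ↔ ω a = true := by simp [st]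

lemma chi_orth {q : ℝ} (hq : q ≠ 0) (B B' : Finset α) :
    E q (fun ω => chi q B ω * chi q B' ω) = if B = B' then ((1 - q) / q) ^ B.card else 0 := by
  have h : ∀ ω : α → Bool, chi q B ω * chi q B' ω =
      ∏ x, ((if x ∈ B then av q (ω x) else 1) * (if x ∈ B' then av q (ω x) else 1)) := by
    intro ω
    rw [prod_mul_distrib, ← prod_filter, ← prod_filter]
    simp [chi]
  simp only [h]
  rw [E_prod q (fun x b => (if x ∈ B then av q b else 1) * (if x ∈ B' then av q b else 1))]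
  split_ifs with hB
  · subst hB
    have : ∀ x, q * ((if x ∈ B then av q true else 1) * (if x ∈ B then av q true else 1)) +
        (1 - q) * ((if x ∈ B then av q false else 1) * (if x ∈ B then av q false else 1))
        = if x ∈ B then (1 - q) / q else 1 := by
      intro x
      by_cases hx : x ∈ B
      · simp only [hx, if_true, av]; simp; field_simp; ring
      · simp [hx]
    rw [prod_congr rfl (fun a _ => this a), ← prod_filter]; simp [div_pow]
  · have : ∃ x, ¬ (x ∈ B ↔ x ∈ B') := by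
      by_contra hc; push Not at hc; exact hB (Finset.ext hc)
    obtain ⟨x, hx⟩ := this
    refine prod_eq_zero (mem_univ x) ?_
    by_cases h1 : x ∈ B <;> by_cases h2 : x ∈ B'
    · exact absurd (by simp [h1, h2]) hx
    · simp only [h1, h2, if_true, if_false, av]; simp; field_simp; ring
    · simp only [h1, h2, if_true, if_false, av]; simp; field_simp; ring
    · exact absurd (by simp [h1, h2]) hx

lemma E_sq_expand {q : ℝ} (hq : q ≠ 0) (Z : Finset α → ℝ) :
    E q (fun ω => (∑ B, Z B * chi q B ω) ^ 2) = ∑ B, ((1 - q) / q) ^ B.card * Z B ^ 2 := by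
  have h : ∀ ω, (∑ B, Z B * chi q B ω) ^ 2 =
      ∑ B, ∑ B', Z B * Z B' * (chi q B ω * chi q B' ω) := by
    intro ω
    rw [sq, sum_mul_sum]
    exact sum_congr rfl fun _ _ => sum_congr rfl fun _ _ => by ring
  simp only [h]
  rw [E_sum]
  refine sum_congr rfl fun B _ => ?_
  rw [E_sum]
  simp only [E_const_mul, chi_orth hq]
  rw [Finset.sum_eq_single B]
  · simp; ring
  · intro B' _ hB'; rw [if_neg (Ne.symm hB')]; ring
  · simp

lemma bessel (f : (α → Bool) → ℝ) :
    ∑ B, (E (1 / 2) (fun s => f s * chi (1 / 2) B s)) ^ 2 ≤ E (1 / 2) (fun s => f s ^ 2) := by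
  set c : Finset α → ℝ := fun B => E (1 / 2) (fun s => f s * chi (1 / 2) B s) with hc
  have h1 := E_sq_expand (q := 1 / 2) (by norm_num) c
  have e : ((1 : ℝ) - 1 / 2) / (1 / 2) = 1 := by norm_num
  simp only [e, one_pow, one_mul] at h1
  have h2 : E (1 / 2) (fun s => f s * ∑ B, c B * chi (1 / 2) B s) = ∑ B, c B ^ 2 := by
    simp only [mul_sum]
    rw [E_sum]
    refine sum_congr rfl fun B _ => ?_
    rw [E_congr _ (g := fun s => c B * (f s * chi (1 / 2) B s)) fun s => by ring, E_const_mul, sq]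
  have h3 : 0 ≤ E (1 / 2) (fun s => (f s - ∑ B, c B * chi (1 / 2) B s) ^ 2) :=
    E_nonneg (by norm_num) (by norm_num) fun _ => sq_nonneg _
  rw [E_congr _ (g := fun s => f s ^ 2 - 2 * (f s * ∑ B, c B * chi (1 / 2) B s) +
    (∑ B, c B * chi (1 / 2) B s) ^ 2) fun s => by ring, E_add, E_sub, E_const_mul, h1, h2] at h3
  linarith

lemma second_moment {ι : Type*} {q : ℝ} (h0 : 0 < q) (h1 : q ≤ 1) (I : Finset ι) (c : ι → ℝ)
    (S : ι → Finset α) (s : ι → α → Bool) (P : (α → Bool) → Prop)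
    (hP : ∀ ω, ¬ P ω → ∀ i ∈ I, c i ≠ 0 → ∃ x ∈ S i, s i x = true ∧ ω x = false) :
    (∑ i ∈ I, c i) ^ 2 ≤ Pr q P * ∑ B, ((1 - q) / q) ^ B.card *
      (∑ i ∈ I, c i * ind (B ⊆ S i) * chi (1 / 2) B (s i)) ^ 2 := by
  set Z : Finset α → ℝ := fun B => ∑ i ∈ I, c i * ind (B ⊆ S i) * chi (1 / 2) B (s i) with hZ
  have hΨ : ∀ ω, ∑ B, Z B * chi q B ω =
      ∑ i ∈ I, c i * ∏ x ∈ S i, (1 + av (1 / 2) (s i x) * av q (ω x)) := by
    intro ω
    simp only [hZ, sum_mul]
    rw [sum_comm]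
    refine sum_congr rfl fun i _ => ?_
    rw [prod_one_add, mul_sum, ← sum_subset (subset_univ (S i).powerset)]
    · refine sum_congr rfl fun B hB => ?_
      rw [ind_pos (mem_powerset.1 hB), prod_mul_distrib]
      simp only [chi]; ring
    · intro B _ hB
      rw [ind_neg (by simpa using hB)]; ring
  have hE : E q (fun ω => ∑ B, Z B * chi q B ω) = ∑ i ∈ I, c i := by
    rw [E_sum]
    have : ∀ B : Finset α, E q (fun ω => Z B * chi q B ω) = if B = ∅ then Z B else 0 := by
      intro B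
      rw [E_const_mul, E_congr _ (g := fun ω => chi q B ω * chi q ∅ ω) fun ω => by simp [chi],
        chi_orth h0.ne']
      split_ifs with h
      · subst h; simp
      · simp
    simp only [this]
    rw [sum_ite_eq']
    simp [hZ, chi, ind]
  rw [← hE, ← E_sq_expand h0.ne' Z]
  refine sq_E_le h0.le h1 fun ω hω => ?_
  rw [hΨ]
  refine sum_eq_zero fun i hi => ?_
  by_cases hc : c i = 0
  · rw [hc, zero_mul]
  obtain ⟨x, hx, h2, h3⟩ := hP ω hω i hi hc
  rw [prod_eq_zero hx, mul_zero]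
  rw [h2, h3]; simp [av]; norm_num

/-- linear domination: random halves of a spread family are dominated by the product measure -/
lemma domination {ι : Type*} {q : ℝ} (h0 : 0 < q) (h1 : q ≤ 1) (T : Finset ι)
    (S : ι → Finset α) (𝓑 : Finset α → Prop) (hB : ∀ B B', B ⊆ B' → 𝓑 B → 𝓑 B') (Λ : ℝ)
    (hΛ : ∀ B : Finset α, ((1 - q) / q) ^ B.card * (T.filter fun t => B ⊆ S t).card ≤ Λ) :
    ∑ t ∈ T, Pr (1 / 2) (fun s => 𝓑 (S t ∩ st s)) ≤ Λ * Pr q (fun ω => 𝓑 (st ω)) := by
  have hΛ0 : 0 ≤ Λ := le_trans (by simp) (hΛ ∅)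
  have hy : 0 ≤ (1 - q) / q := div_nonneg (by linarith) h0.le
  set β := ∑ t ∈ T, Pr (1 / 2) (fun s => 𝓑 (S t ∩ st s)) with hβ
  set μ := Pr q (fun ω : α → Bool => 𝓑 (st ω)) with hμ
  have hμ0 : 0 ≤ μ := Pr_nonneg h0.le h1 _
  have h := second_moment h0 h1 (T ×ˢ (univ : Finset (α → Bool)))
    (fun p => bernoulliWeight (1 / 2) p.2 * ind (𝓑 (S p.1 ∩ st p.2))) (fun p => S p.1)
    (fun p => p.2) (fun ω => 𝓑 (st ω)) ?_
  · have e1 : ∑ p ∈ T ×ˢ (univ : Finset (α → Bool)),
        bernoulliWeight (1 / 2) p.2 * ind (𝓑 (S p.1 ∩ st p.2)) = β := by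
      rw [sum_product]; rfl
    set fh : ι → Finset α → ℝ := fun t B =>
      E (1 / 2) (fun s => ind (𝓑 (S t ∩ st s)) * chi (1 / 2) B s) with hfh
    have e2 : ∀ B, ∑ p ∈ T ×ˢ (univ : Finset (α → Bool)),
        bernoulliWeight (1 / 2) p.2 * ind (𝓑 (S p.1 ∩ st p.2)) * ind (B ⊆ S p.1) *
          chi (1 / 2) B p.2 = ∑ t ∈ T, ind (B ⊆ S t) * fh t B := by
      intro B
      rw [sum_product]
      refine sum_congr rfl fun t _ => ?_
      simp only [hfh, E, mul_sum]
      exact sum_congr rfl fun _ _ => by ring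
    simp only [e1, e2] at h
    have e3 : ∀ B : Finset α, ((1 - q) / q) ^ B.card * (∑ t ∈ T, ind (B ⊆ S t) * fh t B) ^ 2 ≤
        Λ * ∑ t ∈ T, fh t B ^ 2 := by
      intro B
      have a1 := sum_mul_sq_le_sq_mul_sq T (fun t => ind (B ⊆ S t)) (fun t => fh t B)
      have a2 : ∑ t ∈ T, ind (B ⊆ S t) ^ 2 = (T.filter fun t => B ⊆ S t).card := by
        simp only [sq, ind_mul_self]; exact sum_ind _ _
      rw [a2] at a1
      have a3 : 0 ≤ ∑ t ∈ T, fh t B ^ 2 := sum_nonneg fun _ _ => sq_nonneg _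
      calc _ ≤ ((1 - q) / q) ^ B.card * ((T.filter fun t => B ⊆ S t).card * ∑ t ∈ T, fh t B ^ 2) :=
            mul_le_mul_of_nonneg_left a1 (pow_nonneg hy _)
        _ ≤ _ := by rw [← mul_assoc]; exact mul_le_mul_of_nonneg_right (hΛ B) a3
    have e4 : ∑ B : Finset α, ((1 - q) / q) ^ B.card * (∑ t ∈ T, ind (B ⊆ S t) * fh t B) ^ 2 ≤
        Λ * β := by
      refine (sum_le_sum fun B _ => e3 B).trans ?_
      rw [← mul_sum, sum_comm]
      refine mul_le_mul_of_nonneg_left (sum_le_sum fun t _ => ?_) hΛ0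
      refine (bessel _).trans (le_of_eq ?_)
      simp only [sq, ind_mul_self]; rfl
    have e5 : β ^ 2 ≤ μ * (Λ * β) := h.trans (mul_le_mul_of_nonneg_left e4 hμ0)
    by_contra hc
    push Not at hc
    have : 0 < β := lt_of_le_of_lt (mul_nonneg hΛ0 hμ0) hc
    nlinarith
  · intro ω hω p _ hc
    by_contra hcon
    push Not at hcon
    have : 𝓑 (S p.1 ∩ st p.2) := by
      by_contra h'; exact hc (by rw [ind_neg h', mul_zero])
    refine hω (hB _ _ (fun x hx => ?_) this)
    rw [mem_inter, mem_st] at hx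
    simpa using hcon x hx.1 hx.2

end

end Crest.Agent.H0073
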