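import Crest.Agent.H0073.Layer

/-! Star forests: signed second moment over the whole group. -/

namespace Crest.Agent.H0073
open Finset Crest.FinProb Crest.CombinatoricsR.RandomGraph

section
variable {α : Type*} [Fintype α] [DecidableEq α]

lemma exists_le_E {q : ℝ} (h0 : 0 ≤ q) (h1 : q ≤ 1) (f : (α → Bool) → ℝ) : ∃ ω, f ω ≤ E q f := by
  obtain ⟨ω, -, hω⟩ := exists_min_image univ f ⟨fun _ => true, mem_univ _⟩
  refine ⟨ω, ?_⟩
  rw [← E_const (α := α) q (f ω)]
  exact E_mono h0 h1 fun ω' => hω ω' (mem_univ _)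

variable {Γ : Type*} [Fintype Γ] [Group Γ]

omit [Fintype α] [DecidableEq α] [Fintype Γ] in
lemma map_mul' (a : Γ →* Equiv.Perm α) (B : Finset α) (σ τ : Γ) :
    B.map (a (σ * τ)).toEmbedding = (B.map (a τ).toEmbedding).map (a σ).toEmbedding := by
  rw [Finset.map_map]; congr 1; ext x; simp

omit [Fintype α] [DecidableEq α] [Fintype Γ] in
lemma map_one' (a : Γ →* Equiv.Perm α) (B : Finset α) : B.map (a 1).toEmbedding = B := by
  rw [map_one]; exact Finset.map_refl

lemma group_halves (a : Γ →* Equiv.Perm α) (H : Finset α) {q : ℝ} (h0 : 0 < q) (h1 : q ≤ 1)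
    (hsum : ∑ B ∈ H.powerset, ((1 - q) / q) ^ B.card *
      (univ.filter fun σ => B.map (a σ).toEmbedding = B).card ≤ 3 / 2 * Fintype.card Γ) :
    ∃ s : α → Bool, ∀ b, 1 / 2 ≤ Pr q (fun ω => ∃ σ, ∀ x ∈ H, s x = b → ω (a σ x) = true) := by
  classical
  have hy : 0 ≤ (1 - q) / q := div_nonneg (by linarith) h0.le
  set g : ℝ := (Fintype.card Γ : ℝ) with hg
  have hg0 : 0 < g := by rw [hg]; exact_mod_cast Fintype.card_pos
  let N : (α → Bool) → ℝ := fun s => ∑ B : Finset α, ((1 - q) / q) ^ B.card *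
    (∑ σ : Γ, 1 / g * ind (B ⊆ H.map (a σ).toEmbedding) *
      chi (1 / 2) (B.map (a σ⁻¹).toEmbedding) s) ^ 2
  have hSM : ∀ s : α → Bool,
      1 ≤ Pr q (fun ω => ∃ σ, ∀ x ∈ H, s x = true → ω (a σ x) = true) * N s := by
    intro s
    have := second_moment h0 h1 (univ : Finset Γ) (fun _ => 1 / g)
      (fun σ => H.map (a σ).toEmbedding) (fun σ x => s (a σ⁻¹ x))
      (fun ω => ∃ σ, ∀ x ∈ H, s x = true → ω (a σ x) = true) (by
        intro ω hω σ _ _
        push Not at hω
        obtain ⟨x, hx, h2, h3⟩ := hω σ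
        exact ⟨a σ x, mem_map_of_mem _ hx, by simpa using h2, by simpa using h3⟩)
    have e : ∑ _σ : Γ, 1 / g = 1 := by
      rw [sum_const, card_univ, nsmul_eq_mul, ← hg]; field_simp
    rw [e, one_pow] at this
    convert this using 6 with B _ σ
    simp [chi]
  have hEN : E (1 / 2) N ≤ 3 / 2 := by
    simp only [N]
    rw [E_sum]
    have e1 : ∀ B : Finset α, E (1 / 2) (fun s => ((1 - q) / q) ^ B.card *
        (∑ σ : Γ, 1 / g * ind (B ⊆ H.map (a σ).toEmbedding) *
          chi (1 / 2) (B.map (a σ⁻¹).toEmbedding) s) ^ 2) ≤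
        ∑ σ : Γ, 1 / g ^ 2 * (ind (B.map (a σ⁻¹).toEmbedding ⊆ H) *
          (((1 - q) / q) ^ (B.map (a σ⁻¹).toEmbedding).card * (univ.filter fun τ =>
            (B.map (a σ⁻¹).toEmbedding).map (a τ).toEmbedding = B.map (a σ⁻¹).toEmbedding).card)) := by
      intro B
      rw [E_const_mul]
      have e2 : ∀ s, (∑ σ : Γ, 1 / g * ind (B ⊆ H.map (a σ).toEmbedding) *
          chi (1 / 2) (B.map (a σ⁻¹).toEmbedding) s) ^ 2 = ∑ σ : Γ, ∑ σ' : Γ,
          (1 / g ^ 2 * ind (B ⊆ H.map (a σ).toEmbedding) * ind (B ⊆ H.map (a σ').toEmbedding)) *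
          (chi (1 / 2) (B.map (a σ⁻¹).toEmbedding) s *
            chi (1 / 2) (B.map (a σ'⁻¹).toEmbedding) s) := by
        intro s
        rw [sq, sum_mul_sum]
        exact sum_congr rfl fun _ _ => sum_congr rfl fun _ _ => by ring
      simp only [e2]
      rw [E_sum, mul_sum]
      refine sum_le_sum fun σ _ => ?_
      rw [E_sum]
      simp only [E_const_mul, chi_orth (q := 1 / 2) (by norm_num)]
      have e3 : ind (B.map (a σ⁻¹).toEmbedding ⊆ H) = ind (B ⊆ H.map (a σ).toEmbedding) := by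
        refine ind_congr ⟨fun h => ?_, fun h => ?_⟩
        · have := map_subset_map (f := (a σ).toEmbedding).2 h
          rwa [← map_mul', mul_inv_cancel, map_one'] at this
        · have := map_subset_map (f := (a σ⁻¹).toEmbedding).2 h
          rwa [← map_mul', inv_mul_cancel, map_one'] at this
      rw [e3, card_map, ← sum_ind, ← Equiv.sum_comp ((Equiv.inv Γ).trans (Equiv.mulLeft σ)),
        mul_sum, mul_sum, mul_sum, mul_sum]
      refine sum_le_sum fun σ' _ => ?_
      have e4 : ((Equiv.inv Γ).trans (Equiv.mulLeft σ)) σ' = σ * σ'⁻¹ := rfl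
      rw [e4, ← map_mul', mul_inv_rev, inv_inv]
      have := ind_nonneg (B ⊆ H.map (a σ).toEmbedding)
      have := ind_le_one (B ⊆ H.map (a (σ * σ'⁻¹)).toEmbedding)
      have hp : 0 ≤ ((1 - q) / q) ^ B.card * (1 / g ^ 2) * ind (B ⊆ H.map (a σ).toEmbedding) := by
        positivity
      split_ifs with h
      · rw [ind_pos h.symm]
        have e : ((1 : ℝ) - 1 / 2) / (1 / 2) = 1 := by norm_num
        rw [e, one_pow]
        nlinarith
      · rw [ind_neg (Ne.symm h)]; simp
    refine (sum_le_sum fun B _ => e1 B).trans ?_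
    rw [sum_comm]
    have e5 : ∀ σ : Γ, ∑ B : Finset α, 1 / g ^ 2 * (ind (B.map (a σ⁻¹).toEmbedding ⊆ H) *
          (((1 - q) / q) ^ (B.map (a σ⁻¹).toEmbedding).card * (univ.filter fun τ =>
            (B.map (a σ⁻¹).toEmbedding).map (a τ).toEmbedding = B.map (a σ⁻¹).toEmbedding).card))
        ≤ 1 / g ^ 2 * (3 / 2 * g) := by
      intro σ
      rw [← mul_sum]
      refine mul_le_mul_of_nonneg_left (le_trans (le_of_eq ?_) hsum) (by positivity)
      refine (Equiv.sum_comp (Equiv.finsetCongr (a σ⁻¹)) (fun B => ind (B ⊆ H) *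
        (((1 - q) / q) ^ B.card * (univ.filter fun τ => B.map (a τ).toEmbedding = B).card))).trans ?_
      rw [← sum_subset (subset_univ H.powerset)]
      · exact sum_congr rfl fun B hB => by rw [ind_pos (mem_powerset.1 hB), one_mul]
      · intro B _ hB; rw [ind_neg (by simpa using hB), zero_mul]
    refine (sum_le_sum fun σ _ => e5 σ).trans (le_of_eq ?_)
    rw [sum_const, card_univ, nsmul_eq_mul, ← hg]; field_simp
  obtain ⟨s, hs⟩ := exists_le_E (q := 1 / 2) (by norm_num) (by norm_num)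
    (fun s => N s + N fun x => !s x)
  rw [E_add, E_half_not N] at hs
  have hN0 : ∀ s, 0 ≤ N s := fun s => sum_nonneg fun _ _ => by positivity
  have hN1 : ∀ s, 1 ≤ N s := fun s => (hSM s).trans
    (mul_le_of_le_one_left (hN0 s) (Pr_le_one h0.le h1 _))
  have fin : ∀ s, N s ≤ 2 →
      1 / 2 ≤ Pr q (fun ω => ∃ σ, ∀ x ∈ H, s x = true → ω (a σ x) = true) := by
    intro s h
    have := hSM s
    have h2 := Pr_nonneg h0.le h1 (fun ω => ∃ σ, ∀ x ∈ H, s x = true → ω (a σ x) = true)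
    nlinarith
  refine ⟨s, fun b => ?_⟩
  cases b
  · have := fin (fun x => !s x) (by linarith [hN1 s])
    simpa using this
  · exact fin s (by linarith [hN1 fun x => !s x])

/-- spread of the orbit of `HS` -/
def Spread (a : Γ →* Equiv.Perm α) (HS : Finset α) (r : ℝ) : Prop :=
  ∀ J : Finset α, ((univ.filter fun σ => J.map (a σ).toEmbedding ⊆ HS).card : ℝ) ≤
    2 * r ^ J.card * Fintype.card Γ

omit [Fintype α] in
lemma class_bound (a : Γ →* Equiv.Perm α) (HS : Finset α) {r : ℝ} (hr : 0 ≤ r)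
    (hsp : Spread a HS r) (j : ℕ) (𝓒 : Finset (Finset α)) (h1 : ∀ B ∈ 𝓒, B ⊆ HS ∧ B.card = j)
    (h2 : ∀ B ∈ 𝓒, ∀ B' ∈ 𝓒, ∃ π, B.map (a π).toEmbedding = B') :
    ∑ B ∈ 𝓒, ((univ.filter fun σ => B.map (a σ).toEmbedding = B).card : ℝ) ≤
      2 * r ^ j * Fintype.card Γ := by
  classical
  rcases 𝓒.eq_empty_or_nonempty with rfl | ⟨B₀, hB₀⟩
  · simp only [sum_empty]; positivity
  have h3 := hsp B₀
  rw [(h1 B₀ hB₀).2] at h3
  refine le_trans ?_ h3
  have h4 : ∀ B ∈ 𝓒, (univ.filter fun σ => B.map (a σ).toEmbedding = B).card ≤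
      (univ.filter fun σ => B₀.map (a σ).toEmbedding = B).card := by
    intro B hB
    obtain ⟨π, hπ⟩ := h2 B₀ hB₀ B hB
    refine card_le_card_of_injOn (fun σ => σ * π) (fun σ hσ => ?_)
      (fun x _ y _ hxy => mul_right_cancel hxy)
    simp only [coe_filter, mem_univ, true_and, Set.mem_ofPred_eq] at hσ ⊢
    rw [map_mul', hπ, hσ]
  rw [← Nat.cast_sum]
  refine Nat.cast_le.2 ((sum_le_sum h4).trans ?_)
  rw [← card_biUnion]
  · refine card_le_card fun σ hσ => ?_
    obtain ⟨B, hB, hσ⟩ := mem_biUnion.1 hσ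
    rw [mem_filter] at hσ ⊢
    exact ⟨hσ.1, hσ.2 ▸ (h1 B hB).1⟩
  · intro B _ B' _ hne
    rw [Function.onFun, disjoint_left]
    intro σ h h'
    exact hne ((mem_filter.1 h).2.symm.trans (mem_filter.1 h').2)

end

lemma ker_eq {j : ℕ} {V : Type*} [LinearOrder V] (g g' : Fin j → V) (hg : Monotone g)
    (hg' : Monotone g') (h : ∀ i, (∀ i' < i, g' i' ≠ g' i) → ∀ i' < i, g i' ≠ g i)
    (a b : Fin j) (hab : g a = g b) : g' a = g' b := by
  wlog hle : a ≤ b generalizing a b
  · exact (this b a hab.symm (le_of_not_ge hle)).symm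
  by_contra hne
  have hlt : g' a < g' b := lt_of_le_of_ne (hg' hle) hne
  obtain ⟨i, hi, hmin⟩ := exists_min_image (univ.filter fun i => g' i = g' b) id ⟨b, by simp⟩
  simp only [mem_filter, mem_univ, true_and, id] at hi hmin
  have h1 : a < i := by
    by_contra hc
    have := hg' (le_of_not_gt hc)
    rw [hi] at this
    exact absurd hlt (not_lt.2 this)
  refine h i (fun i' hi' he => absurd (hmin i' (he.trans hi)) (not_le.2 hi')) a h1 ?_
  exact le_antisymm (hg h1.le) (hab ▸ hg (hmin b rfl))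

lemma perm_of_ker {ι V : Type*} [Finite ι] (u u' : ι → V) (h : ∀ a b, u a = u b ↔ u' a = u' b) :
    ∃ π : Equiv.Perm V, ∀ a, π (u a) = u' a := by
  obtain ⟨π, hπ⟩ := Equiv.Perm.exists_extending_pair (Subtype.val : Set.range u → V)
    (fun x => u' x.2.choose) Subtype.val_injective (by
      intro x y hxy
      apply Subtype.ext
      rw [← x.2.choose_spec, ← y.2.choose_spec]
      exact (h _ _).2 hxy)
  refine ⟨π, fun a => ?_⟩
  rw [hπ ⟨u a, a, rfl⟩]
  exact (h _ _).1 (Exists.choose_spec (⟨a, rfl⟩ : u a ∈ Set.range u))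

variable {n : ℕ}

lemma act_val (σ : Equiv.Perm (Fin n)) (z : EdgeSlot n) : (H0076.act n σ z).1 = z.1.map σ := rfl

lemma star_halves (HS : Finset (EdgeSlot n)) {r q : ℝ} (hr : 0 ≤ r) (h0 : 0 < q) (h1 : q ≤ 1)
    (hrq : 16 * r ≤ q) (hsp : Spread (H0076.act n) HS r) (S : Fin n → Finset (Fin n))
    (hone : ∀ t, (S t).card ≤ 1) (hstar : ∀ t, ∀ h ∈ S t, S h = ∅)
    (hHS : ∀ t, ∀ h ∈ S t, ∀ z : EdgeSlot n, z.1 = s(t, h) → z ∈ HS) : Halves q S := by
  classical
  have hf : ∀ t, ∃ x, ∀ h ∈ S t, h = x := by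
    intro t
    rcases (S t).eq_empty_or_nonempty with h | ⟨x, hx⟩
    · exact ⟨t, by simp [h]⟩
    · exact ⟨x, fun h hh => card_le_one.1 (hone t) _ hh _ hx⟩
  choose f hf using hf
  have hT : ∀ t t', f t ∈ S t → f t' ∈ S t' → t ≠ f t' := by
    rintro t t' h h' rfl
    rw [hstar _ _ h'] at h
    simp at h
  set H : Finset (EdgeSlot n) := univ.filter fun z => ∃ t, f t ∈ S t ∧ z.1 = s(t, f t) with hH
  have hHH : H ⊆ HS := by
    intro z hz
    obtain ⟨t, ht, hz⟩ := (mem_filter.1 hz).2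
    exact hHS t _ ht z hz
  let Rep : (j : ℕ) → Finset (Fin j) → Finset (EdgeSlot n) → Prop := fun j c B =>
    ∃ u : Fin j → Fin n, Function.Injective u ∧ (∀ i, f (u i) ∈ S (u i)) ∧ Monotone (f ∘ u) ∧
      (∀ z, z ∈ B ↔ ∃ i, z.1 = s(u i, f (u i))) ∧
      ∀ i, i ∈ c ↔ ∀ i' < i, (f ∘ u) i' ≠ (f ∘ u) i
  have hrep : ∀ j, ∀ B ∈ powersetCard j H, ∃ c, Rep j c B := by
    intro j B hB
    obtain ⟨hB', rfl⟩ := mem_powersetCard.1 hB
    have : ∀ i : Fin B.card, ∃ t, f t ∈ S t ∧ (B.equivFin.symm i).1.1 = s(t, f t) :=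
      fun i => (mem_filter.1 (hB' (B.equivFin.symm i).2)).2
    choose u hu hu' using this
    have hinj : Function.Injective u := by
      intro i i' h
      apply B.equivFin.symm.injective
      apply Subtype.ext; apply Subtype.ext
      rw [hu', hu', h]
    let ρ := Tuple.sort (f ∘ u)
    refine ⟨univ.filter fun i => ∀ i' < i, (f ∘ (u ∘ ρ)) i' ≠ (f ∘ (u ∘ ρ)) i, u ∘ ρ,
      hinj.comp ρ.injective, fun i => hu _, Tuple.monotone_sort (f ∘ u), fun z => ?_, by simp⟩
    constructor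
    · intro hz
      refine ⟨ρ.symm (B.equivFin ⟨z, hz⟩), ?_⟩
      simp only [Function.comp_apply, Equiv.apply_symm_apply]
      rw [← hu']; simp
    · rintro ⟨i, hi⟩
      simp only [Function.comp_apply] at hi
      rw [← hu'] at hi
      rw [Subtype.ext hi]
      exact (B.equivFin.symm (ρ i)).2
  have hcls : ∀ j, ∑ B ∈ powersetCard j H,
      ((univ.filter fun σ => B.map (H0076.act n σ).toEmbedding = B).card : ℝ) ≤
      2 ^ j * (2 * r ^ j * Fintype.card (Equiv.Perm (Fin n))) := by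
    intro j
    calc _ ≤ ∑ B ∈ powersetCard j H, ∑ c : Finset (Fin j), ind (Rep j c B) *
          ((univ.filter fun σ => B.map (H0076.act n σ).toEmbedding = B).card : ℝ) := by
          refine sum_le_sum fun B hB => ?_
          obtain ⟨c, hc⟩ := hrep j B hB
          refine le_trans ?_ (single_le_sum (f := fun c => ind (Rep j c B) *
            ((univ.filter fun σ => B.map (H0076.act n σ).toEmbedding = B).card : ℝ))
            (fun c _ => mul_nonneg (ind_nonneg _) (by positivity)) (mem_univ c))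
          rw [ind_pos hc, one_mul]
      _ ≤ ∑ _c : Finset (Fin j), 2 * r ^ j * Fintype.card (Equiv.Perm (Fin n)) := by
          rw [sum_comm]
          refine sum_le_sum fun c _ => ?_
          simp only [ind_eq_ite, ite_mul, one_mul, zero_mul]
          rw [← sum_filter]
          refine class_bound _ HS hr hsp j _ (fun B hB => ?_) fun B hB B' hB' => ?_
          · obtain ⟨h2, h3⟩ := mem_powersetCard.1 (mem_filter.1 hB).1
            exact ⟨h2.trans hHH, h3⟩
          · obtain ⟨u, a1, a2, a3, a4, a5⟩ := (mem_filter.1 hB).2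
            obtain ⟨u', b1, b2, b3, b4, b5⟩ := (mem_filter.1 hB').2
            obtain ⟨π, hπ⟩ := perm_of_ker (Sum.elim u (f ∘ u)) (Sum.elim u' (f ∘ u')) (by
              rintro (x | x) (y | y)
              · simp [a1.eq_iff, b1.eq_iff]
              · exact iff_of_false (hT _ _ (a2 x) (a2 y)) (hT _ _ (b2 x) (b2 y))
              · exact iff_of_false (hT _ _ (a2 y) (a2 x)).symm (hT _ _ (b2 y) (b2 x)).symm
              · exact ⟨ker_eq _ _ a3 b3 (fun i h => (a5 i).1 ((b5 i).2 h)) x y,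
                  ker_eq _ _ b3 a3 (fun i h => (b5 i).1 ((a5 i).2 h)) x y⟩)
            refine ⟨π, eq_of_subset_of_card_le (fun z hz => ?_) ?_⟩
            · obtain ⟨z, hz', rfl⟩ := mem_map.1 hz
              obtain ⟨i, hi⟩ := (a4 z).1 hz'
              refine (b4 _).2 ⟨i, ?_⟩
              have c1 : π (u i) = u' i := hπ (Sum.inl i)
              have c2 : π (f (u i)) = f (u' i) := hπ (Sum.inr i)
              rw [Equiv.coe_toEmbedding, act_val, hi, Sym2.map_mk, c1, c2]
            · rw [card_map, (mem_powersetCard.1 (mem_filter.1 hB).1).2,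
                (mem_powersetCard.1 (mem_filter.1 hB').1).2]
      _ = _ := by simp
  obtain ⟨s, hs⟩ := group_halves (H0076.act n) H h0 h1 (by
    have hy : 0 ≤ (1 - q) / q := div_nonneg (by linarith) h0.le
    have hyr : (1 - q) / q * (2 * r) ≤ 1 / 8 := by
      rw [div_mul_eq_mul_div, div_le_iff₀ h0]; nlinarith
    set g : ℝ := (Fintype.card (Equiv.Perm (Fin n)) : ℝ) with hg
    have hg0 : 0 ≤ g := by positivity
    rw [sum_powerset, sum_range_succ']
    have c0 : ∑ B ∈ powersetCard 0 H, ((1 - q) / q) ^ B.card *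
        ((univ.filter fun σ => B.map (H0076.act n σ).toEmbedding = B).card : ℝ) = g := by
      simp [hg]
    have c1 : ∀ j, ∑ B ∈ powersetCard (j + 1) H, ((1 - q) / q) ^ B.card *
        ((univ.filter fun σ => B.map (H0076.act n σ).toEmbedding = B).card : ℝ) ≤
        (1 / 2) ^ j * (g / 4) := by
      intro j
      rw [sum_congr rfl (g := fun B => ((1 - q) / q) ^ (j + 1) *
        ((univ.filter fun σ => B.map (H0076.act n σ).toEmbedding = B).card : ℝ))
        fun B hB => by rw [(mem_powersetCard.1 hB).2], ← mul_sum]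
      refine (mul_le_mul_of_nonneg_left (hcls (j + 1)) (pow_nonneg hy _)).trans ?_
      have c2 : ((1 - q) / q * (2 * r)) ^ (j + 1) ≤ (1 / 2) ^ j * (1 / 8) := by
        rw [pow_succ]
        exact mul_le_mul (pow_le_pow_left₀ (by positivity) (by linarith) _) hyr (by positivity)
          (by positivity)
      calc _ = ((1 - q) / q * (2 * r)) ^ (j + 1) * (2 * g) := by rw [mul_pow, mul_pow]; ring
        _ ≤ (1 / 2) ^ j * (1 / 8) * (2 * g) := mul_le_mul_of_nonneg_right c2 (by positivity)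
        _ = _ := by ring
    rw [c0]
    have c3 := (sum_le_sum fun j (_ : j ∈ range H.card) => c1 j)
    rw [← sum_mul] at c3
    have c4 := sum_geometric_two_le H.card
    nlinarith)
  refine ⟨fun p => if h : ¬ s(p.1, p.2).IsDiag then s ⟨s(p.1, p.2), h⟩ else false, fun b => ?_⟩
  refine (hs b).trans (Pr_mono h0.le h1 fun ω ⟨σ, hσ⟩ => ⟨σ, fun t h hh => ?_⟩)
  obtain ⟨h2, h3⟩ := mem_filter.1 hh
  obtain rfl := hf t h h2
  have hd : ¬ s(t, f t).IsDiag := by rw [Sym2.mk_isDiag_iff]; exact hT _ _ h2 h2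
  simp only [hd, not_false_eq_true, dif_pos] at h3
  rw [H0076.graphOf_adj]
  exact ⟨_, hσ ⟨s(t, f t), hd⟩ (mem_filter.2 ⟨mem_univ _, t, h2, rfl⟩) h3⟩

end Crest.Agent.H0073
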