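import Crest.Agent.H0073.Star

/-! Structural consequences of spread. -/

namespace Crest.Agent.H0073
open Finset Crest.FinProb Crest.CombinatoricsR.RandomGraph

variable {n : ℕ}

lemma count_perm {ι : Type*} [Fintype ι] [DecidableEq ι] (u : ι → Fin n) (hu : Function.Injective u)
    (𝒰 : Finset (ι → Fin n)) (h𝒰 : ∀ u' ∈ 𝒰, Function.Injective u') :
    𝒰.card * Fintype.card (Equiv.Perm (Fin n)) ≤
      n ^ Fintype.card ι * (univ.filter fun π : Equiv.Perm (Fin n) => π ∘ u ∈ 𝒰).card := by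
  have h1 : ∀ u'' ∈ 𝒰, Fintype.card (Equiv.Perm (Fin n)) ≤
      n ^ Fintype.card ι * (univ.filter fun π : Equiv.Perm (Fin n) => π ∘ u = u'').card := by
    intro u'' hu''
    rw [← card_univ, mul_comm]
    refine (card_le_mul_card_image (f := fun π : Equiv.Perm (Fin n) => π ∘ u) univ _
      fun u' hu' => ?_).trans (Nat.mul_le_mul_left _ ?_)
    · obtain ⟨π₀, -, rfl⟩ := mem_image.1 hu'
      obtain ⟨τ, hτ⟩ := Equiv.Perm.exists_extending_pair (π₀ ∘ u) u'' (π₀.injective.comp hu)
        (h𝒰 _ hu'')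
      refine card_le_card_of_injOn (fun π => τ * π) (fun π hπ => ?_)
        (fun x _ y _ hxy => mul_left_cancel hxy)
      simp only [coe_filter, mem_univ, true_and, Set.mem_ofPred_eq] at hπ ⊢
      funext a
      rw [← hτ a, ← hπ]; rfl
    · refine (card_le_univ _).trans ?_
      simp
  rw [card_eq_sum_card_fiberwise (f := fun π : Equiv.Perm (Fin n) => π ∘ u) (t := 𝒰)
    (fun π hπ => by simpa using hπ), mul_sum, ← smul_eq_mul, ← sum_const]
  refine sum_le_sum fun u'' hu'' => (h1 u'' hu'').trans (Nat.mul_le_mul_left _ (card_le_card ?_))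
  intro π hπ
  simp only [mem_filter, mem_univ, true_and] at hπ ⊢
  exact ⟨hπ ▸ hu'', hπ⟩

lemma spread_pairs (G : SimpleGraph (Fin n)) (HS : Finset (EdgeSlot n))
    (hHS : ∀ z, z ∈ HS ↔ z.1 ∈ G.edgeSet) {r : ℝ} (hsp : Spread (H0076.act n) HS r)
    {ι : Type*} [Fintype ι] [DecidableEq ι] (u : ι → Fin n) (hu : Function.Injective u)
    (𝒰 : Finset (ι → Fin n)) (h𝒰 : ∀ u' ∈ 𝒰, Function.Injective u') (P : Finset (Sym2 (Fin n)))
    (hP : ∀ e ∈ P, ¬ e.IsDiag)
    (h : ∀ π : Equiv.Perm (Fin n), π ∘ u ∈ 𝒰 → ∀ e ∈ P, e.map π ∈ G.edgeSet) :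
    (𝒰.card : ℝ) ≤ n ^ Fintype.card ι * (2 * r ^ P.card) := by
  have h1 := hsp (P.subtype fun e => ¬ e.IsDiag)
  rw [card_subtype, filter_true_of_mem hP] at h1
  have h2 : ((𝒰.card : ℝ) * Fintype.card (Equiv.Perm (Fin n))) ≤
      n ^ Fintype.card ι * (univ.filter fun π : Equiv.Perm (Fin n) => π ∘ u ∈ 𝒰).card := by
    exact_mod_cast count_perm u hu 𝒰 h𝒰
  have h3 : ((univ.filter fun π : Equiv.Perm (Fin n) => π ∘ u ∈ 𝒰).card : ℝ) ≤
      2 * r ^ P.card * Fintype.card (Equiv.Perm (Fin n)) := by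
    refine le_trans (Nat.cast_le.2 (card_le_card fun π hπ => ?_)) h1
    simp only [mem_filter, mem_univ, true_and] at hπ ⊢
    intro z hz
    obtain ⟨z, hz', rfl⟩ := mem_map.1 hz
    exact (hHS _).2 (h π hπ z.1 (mem_subtype.1 hz'))
  have h4 : (0 : ℝ) < Fintype.card (Equiv.Perm (Fin n)) := by exact_mod_cast Fintype.card_pos
  refine le_of_mul_le_mul_right (h2.trans ?_) h4
  rw [mul_assoc]
  exact mul_le_mul_of_nonneg_left h3 (by positivity)

lemma biclique (G : SimpleGraph (Fin n)) (HS : Finset (EdgeSlot n))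
    (hHS : ∀ z, z ∈ HS ↔ z.1 ∈ G.edgeSet) {r : ℝ} (hsp : Spread (H0076.act n) HS r)
    (A L : Finset (Fin n)) (hd : Disjoint A L) (h : ∀ a ∈ A, ∀ t ∈ L, G.Adj a t) :
    (L.card.factorial : ℝ) ≤ n ^ (A.card + L.card) * (2 * r ^ (A.card * L.card)) := by
  have hinj : ∀ ρ : Equiv.Perm L, Function.Injective
      (Sum.elim (Subtype.val : A → Fin n) (Subtype.val ∘ ρ)) := by
    intro ρ
    refine Function.Injective.sumElim Subtype.val_injective
      (Subtype.val_injective.comp ρ.injective) fun a b hab => ?_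
    exact disjoint_left.1 hd a.2 (hab ▸ (ρ b).2)
  have h1 := spread_pairs G HS hHS hsp (Sum.elim (Subtype.val : A → Fin n) (Subtype.val : L → Fin n))
    (hinj 1) (univ.image fun ρ : Equiv.Perm L =>
      Sum.elim (Subtype.val : A → Fin n) (Subtype.val ∘ ρ))
    (fun u' hu' => by obtain ⟨ρ, -, rfl⟩ := mem_image.1 hu'; exact hinj ρ)
    ((A ×ˢ L).image fun p => s(p.1, p.2))
    (fun e he => by
      obtain ⟨p, hp, rfl⟩ := mem_image.1 he
      rw [mem_product] at hp
      rw [Sym2.mk_isDiag_iff]; exact (h _ hp.1 _ hp.2).ne)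
    (fun π hπ e he => by
      obtain ⟨p, hp, rfl⟩ := mem_image.1 he
      rw [mem_product] at hp
      obtain ⟨ρ, -, hρ⟩ := mem_image.1 hπ
      have e1 : p.1 = π p.1 := congrFun hρ (Sum.inl ⟨p.1, hp.1⟩)
      have e2 : (ρ ⟨p.2, hp.2⟩).1 = π p.2 := congrFun hρ (Sum.inr ⟨p.2, hp.2⟩)
      rw [Sym2.map_mk, ← e1, ← e2]
      exact h _ hp.1 _ (ρ _).2)
  rw [card_image_of_injective, card_image_of_injOn, card_product] at h1
  · simpa [Fintype.card_perm] using h1
  · rintro ⟨a, t⟩ hp ⟨a', t'⟩ hp' he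
    simp only [coe_product, Set.mem_prod, mem_coe] at hp hp'
    rcases Sym2.eq_iff.1 he with ⟨rfl, rfl⟩ | ⟨rfl, rfl⟩
    · rfl
    · exact absurd hp'.2 (disjoint_left.1 hd hp.1)
  · intro ρ ρ' he
    ext x
    exact congrArg Fin.val (congrFun he (Sum.inr x))

lemma codeg_bound (G : SimpleGraph (Fin n)) (HS : Finset (EdgeSlot n))
    (hHS : ∀ z, z ∈ HS ↔ z.1 ∈ G.edgeSet) {r : ℝ} (hr : 0 ≤ r) (hsp : Spread (H0076.act n) HS r)
    (A L : Finset (Fin n)) (h : ∀ a ∈ A, ∀ t ∈ L, G.Adj a t)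
    (hL : 2 * n ^ A.card ≤ 2 ^ L.card) : (L.card : ℝ) ≤ 6 * n * r ^ A.card := by
  have hd : Disjoint A L := disjoint_left.2 fun a ha ha' => G.irrefl (h a ha a ha')
  have h1 := biclique G HS hHS hsp A L hd h
  rcases Nat.eq_zero_or_pos L.card with h0 | h0
  · rw [h0]; simp only [Nat.cast_zero]; positivity
  have h2 := Real.pow_div_factorial_le_exp (L.card : ℝ) (by positivity) L.card
  rw [div_le_iff₀ (by positivity)] at h2
  have h3 : Real.exp L.card ≤ 3 ^ L.card := by
    rw [← mul_one (L.card : ℝ), Real.exp_nat_mul]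
    exact pow_le_pow_left₀ (Real.exp_pos _).le (by linarith [Real.exp_one_lt_d9]) _
  have h4 : (2 : ℝ) * n ^ A.card ≤ 2 ^ L.card := by exact_mod_cast hL
  refine le_of_pow_le_pow_left₀ h0.ne' (by positivity) (h2.trans ?_)
  calc Real.exp L.card * L.card.factorial
      ≤ 3 ^ L.card * (n ^ (A.card + L.card) * (2 * r ^ (A.card * L.card))) := by gcongr
    _ = (2 * n ^ A.card) * (3 ^ L.card * n ^ L.card * (r ^ A.card) ^ L.card) := by
        rw [pow_add, pow_mul]; ring
    _ ≤ 2 ^ L.card * (3 ^ L.card * n ^ L.card * (r ^ A.card) ^ L.card) := by gcongr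
    _ = _ := by
        rw [show (6 : ℝ) = 2 * 3 by norm_num, mul_pow, mul_pow, mul_pow]; ring

lemma half_low (G : SimpleGraph (Fin n)) [DecidableRel G.Adj] (HS : Finset (EdgeSlot n))
    (hHS : ∀ z, z ∈ HS ↔ z.1 ∈ G.edgeSet) {r : ℝ} (hr : 0 ≤ r) (hr' : r < 1 / 2)
    (hsp : Spread (H0076.act n) HS r) (D : ℕ) (hD0 : 0 < D) (hD : n * r ^ D ≤ 1)
    (U : Finset (Fin n)) :
    2 * (U.filter fun v => 4 * D ≤ (U.filter fun w => G.Adj v w).card).card ≤ U.card := by
  set Q := (U ×ˢ U).filter fun p => G.Adj p.1 p.2 with hQ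
  set P := Q.image fun p => s(p.1, p.2) with hP
  have h1 := spread_pairs G HS hHS hsp (Subtype.val : U → Fin n) Subtype.val_injective
    {Subtype.val} (fun u' hu' => by rw [mem_singleton.1 hu']; exact Subtype.val_injective) P
    (fun e he => by
      obtain ⟨p, hp, rfl⟩ := mem_image.1 he
      rw [Sym2.mk_isDiag_iff]; exact (mem_filter.1 hp).2.ne)
    (fun π hπ e he => by
      obtain ⟨p, hp, rfl⟩ := mem_image.1 he
      obtain ⟨hp, hp'⟩ := mem_filter.1 hp
      rw [mem_product] at hp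
      have hπ := mem_singleton.1 hπ
      have e1 : π p.1 = p.1 := congrFun hπ ⟨p.1, hp.1⟩
      have e2 : π p.2 = p.2 := congrFun hπ ⟨p.2, hp.2⟩
      rw [Sym2.map_mk, e1, e2]
      exact hp')
  have h2 : P.card ≤ D * U.card := by
    by_contra hc
    push Not at hc
    simp only [card_singleton, Nat.cast_one, Fintype.card_coe] at h1
    have a1 : r ^ P.card ≤ r ^ (D * U.card + 1) := pow_le_pow_of_le_one hr (by linarith) hc
    have a2 : (n * r ^ D) ^ U.card ≤ 1 := pow_le_one₀ (by positivity) hD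
    have a3 : (n : ℝ) ^ U.card * (2 * r ^ (D * U.card + 1)) = (n * r ^ D) ^ U.card * (2 * r) := by
      rw [mul_pow, pow_succ, pow_mul]; ring
    have a4 : (n : ℝ) ^ U.card * (2 * r ^ P.card) ≤ (n : ℝ) ^ U.card * (2 * r ^ (D * U.card + 1)) := by
      gcongr
    nlinarith
  have h3 : Q.card ≤ 2 * P.card := by
    refine card_le_mul_card_image _ _ fun e he => ?_
    obtain ⟨p, -, rfl⟩ := mem_image.1 he
    refine le_trans (card_le_card (t := {p, p.swap}) fun p' hp' => ?_) card_le_two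
    rcases Sym2.eq_iff.1 (mem_filter.1 hp').2 with ⟨a, b⟩ | ⟨a, b⟩
    · simp [Prod.ext_iff, a, b]
    · simp [Prod.ext_iff, a, b]
  have h4 : Q.card = ∑ v ∈ U, (U.filter fun w => G.Adj v w).card := by
    rw [hQ, card_filter, sum_product]
    exact sum_congr rfl fun v _ => (card_filter _ _).symm
  have h5 : (U.filter fun v => 4 * D ≤ (U.filter fun w => G.Adj v w).card).card * (4 * D) ≤
      Q.card := by
    rw [h4, ← smul_eq_mul, ← sum_const]
    exact (sum_le_sum fun v hv => (mem_filter.1 hv).2).trans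
      (sum_le_sum_of_subset (filter_subset _ _))
  refine Nat.le_of_mul_le_mul_left (c := 2 * D) ?_ (by omega)
  nlinarith

lemma greedy {V : Type*} [DecidableEq V] (G : SimpleGraph V) [DecidableRel G.Adj] (c : ℕ)
    (hc : 0 < c) (key : V → ℕ) (A : Finset V)
    (h : ∀ v ∈ A, (A.filter fun w => G.Adj v w ∧ key w ≤ key v).card < c) :
    ∃ col : V → ℕ, (∀ v, col v < c) ∧ ∀ v ∈ A, ∀ w ∈ A, G.Adj v w → col v ≠ col w := by
  induction A using Finset.induction_on_max_value key with
  | empty => exact ⟨fun _ => 0, fun _ => hc, by simp⟩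
  | insert a s ha hmax ih =>
    obtain ⟨col, h1, h2⟩ := ih fun v hv => lt_of_le_of_lt
      (card_le_card (filter_subset_filter _ (subset_insert _ _))) (h v (mem_insert_of_mem hv))
    obtain ⟨k, hk, hk'⟩ := exists_mem_notMem_of_card_lt_card
      (s := (s.filter fun w => G.Adj a w).image col) (t := range c) (by
        rw [card_range]
        refine lt_of_le_of_lt (card_image_le.trans (card_le_card fun w hw => ?_))
          (h a (mem_insert_self _ _))
        rw [mem_filter] at hw ⊢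
        exact ⟨mem_insert_of_mem hw.1, hw.2, hmax w hw.1⟩)
    have hne : ∀ v ∈ s, v ≠ a := fun v hv e => ha (e ▸ hv)
    refine ⟨Function.update col a k, fun v => ?_, fun v hv w hw hvw => ?_⟩
    · by_cases e : v = a
      · rw [e, Function.update_self]; exact mem_range.1 hk
      · rw [Function.update_of_ne e]; exact h1 v
    · rcases mem_insert.1 hv with rfl | hv' <;> rcases mem_insert.1 hw with rfl | hw'
      · exact absurd hvw G.irrefl
      · rw [Function.update_self, Function.update_of_ne (hne w hw')]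
        exact fun e => hk' (e ▸ mem_image_of_mem _ (mem_filter.2 ⟨hw', hvw⟩))
      · rw [Function.update_self, Function.update_of_ne (hne v hv')]
        exact fun e => hk' (e ▸ mem_image_of_mem _ (mem_filter.2 ⟨hv', hvw.symm⟩))
      · rw [Function.update_of_ne (hne v hv'), Function.update_of_ne (hne w hw')]
        exact h2 v hv' w hw' hvw

lemma layering {V : Type*} [DecidableEq V] (G : SimpleGraph V) [DecidableRel G.Adj] (c : ℕ)
    (hc : 0 < c)
    (h : ∀ U : Finset V,
      2 * (U.filter fun v => c ≤ (U.filter fun w => G.Adj v w).card).card ≤ U.card)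
    (j : ℕ) : ∀ U : Finset V, U.card < 2 ^ j → ∃ ℓ : V → ℕ, (∀ v ∈ U, ℓ v < c * j) ∧
      (∀ v ∈ U, ∀ w ∈ U, G.Adj v w → ℓ v ≠ ℓ w) ∧
      ∀ v ∈ U, (U.filter fun w => G.Adj v w ∧ ℓ w ≤ ℓ v).card < c := by
  induction j with
  | zero =>
    intro U hU
    have : U = ∅ := card_eq_zero.1 (by omega)
    subst this
    exact ⟨fun _ => 0, by simp, by simp, by simp⟩
  | succ j ih =>
    intro U hU
    set U' := U.filter fun v => c ≤ (U.filter fun w => G.Adj v w).card with hU'
    obtain ⟨ℓ, h1, h2, h3⟩ := ih U' (by have := h U; rw [← hU'] at this; rw [pow_succ] at hU; omega)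
    have hlow : ∀ v ∈ U, v ∉ U' → (U.filter fun w => G.Adj v w).card < c := by
      intro v hv hv'
      by_contra hc'
      exact hv' (mem_filter.2 ⟨hv, not_lt.1 hc'⟩)
    obtain ⟨col, h4, h5⟩ := greedy G c hc (fun _ => 0) (U \ U') fun v hv => by
      refine lt_of_le_of_lt (card_le_card fun w hw => ?_)
        (hlow v (mem_sdiff.1 hv).1 (mem_sdiff.1 hv).2)
      rw [mem_filter] at hw ⊢
      exact ⟨(mem_sdiff.1 hw.1).1, hw.2.1⟩
    refine ⟨fun v => if v ∈ U' then ℓ v else c * j + col v, fun v _ => ?_, fun v hv w hw hvw => ?_,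
      fun v hv => ?_⟩
    · rw [Nat.mul_succ]
      dsimp only
      split_ifs with e
      · have := h1 v e; omega
      · have := h4 v; omega
    · by_cases e : v ∈ U' <;> by_cases e' : w ∈ U' <;> simp only [e, e', if_true, if_false]
      · exact h2 v e w e' hvw
      · have := h1 v e; omega
      · have := h1 w e'; omega
      · have := h5 v (mem_sdiff.2 ⟨hv, e⟩) w (mem_sdiff.2 ⟨hw, e'⟩) hvw; omega
    · by_cases e : v ∈ U'
      · refine lt_of_le_of_lt (card_le_card fun w hw => ?_) (h3 v e)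
        rw [mem_filter] at hw ⊢
        obtain ⟨-, a1, a2⟩ := hw
        by_cases e' : w ∈ U' <;> simp only [e, e', if_true, if_false] at a2
        · exact ⟨e', a1, a2⟩
        · have := h1 v e; omega
      · refine lt_of_le_of_lt (card_le_card fun w hw => ?_) (hlow v hv e)
        rw [mem_filter] at hw ⊢
        exact ⟨hw.1, hw.2.1⟩

lemma exists_rank {V : Type*} (A : Finset V) :
    ∃ f : V → ℕ, Set.InjOn f A ∧ ∀ w ∈ A, f w < A.card := by
  classical
  refine ⟨fun w => if h : w ∈ A then (A.equivFin ⟨w, h⟩).val else 0, fun a ha b hb hab => ?_,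
    fun w hw => ?_⟩
  · have ha' : a ∈ A := ha
    have hb' : b ∈ A := hb
    simp only [ha', hb', dif_pos] at hab
    exact congrArg Subtype.val (A.equivFin.injective (Fin.ext hab))
  · simp only [hw, dif_pos]; exact Fin.is_lt _

lemma card_div_le {V : Type*} (A : Finset V) (f : V → ℕ) (hf : Set.InjOn f A) (d i : ℕ)
    (hd : 0 < d) : (A.filter fun w => f w / d = i).card ≤ d := by
  refine le_trans (card_le_card_of_injOn (t := range d) (fun w => f w % d) (fun w _ => ?_)
    fun a ha b hb hab => ?_) (card_range d).le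
  · simpa using Nat.mod_lt _ hd
  · simp only [coe_filter, Set.mem_ofPred_eq] at ha hb hab
    refine hf ha.1 hb.1 ?_
    rw [← Nat.div_add_mod (f a) d, ← Nat.div_add_mod (f b) d, ha.2, hb.2, hab]

end Crest.Agent.H0073
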